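import Vale.Agent.P092.H121.Erg
import Vale.Agent.P092.H171.Ext
import Vale.Agent.P092.H35.Sig

/-!
P092, TEAM N, block [N-CLS] (helper121): a commuting leg is classical. All `n = m + 1 >= 3`, every
local field `k`; target group `PGL_n(k)`.
-/

set_option linter.all false

open scoped LinearAlgebra.Projectivization ZeroAtInfty
open Matrix Topology Filter TopologicalSpace Set

namespace Vale.Agent.P092.H121

open Vale.Agent.P092.H820
open Vale.Agent.P092.H789
open Vale.Agent.P092.H171 (co co_apply conj_eq comm_all exists_joint ext ext_apply ext_zero ext_surj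
  cont_hom)
open Vale.Agent.P092.H35 (sp)
open Vale.Agent.P092.H35.Sig (sig sgm sgm_src sgm_smul homog tv)
open Vale.Agent.P092.H466 (toC toC_apply)

/-! ### More on the support -/

section soft2

variable {X : Type*} [TopologicalSpace X] [CompactSpace X] [T2Space X]
  {K : Type*} [NormedAddCommGroup K] [InnerProductSpace ℂ K] [CompleteSpace K]
  (Φ : C(X, ℂ) →⋆ₐ[ℂ] (K →L[ℂ] K))

/-- the functions which kill a vector form a closed ideal -/
theorem ideal_mem {ξ : K} {G : C(X, ℂ)}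
    (h : ∀ z, (∀ F, Φ F ξ = 0 → F z = 0) → G z = 0) : Φ G ξ = 0 := by
  let I : Ideal C(X, ℂ) :=
    { carrier := {F | Φ F ξ = 0}
      zero_mem' := by
        change Φ 0 ξ = 0
        rw [map_zero]
        rfl
      add_mem' := by
        intro a b ha hb
        change Φ (a + b) ξ = 0
        rw [map_add]
        change Φ a ξ + Φ b ξ = 0
        rw [show Φ a ξ = 0 from ha, show Φ b ξ = 0 from hb, add_zero]
      smul_mem' := by
        intro c a ha
        change Φ (c * a) ξ = 0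
        rw [map_mul]
        change Φ c (Φ a ξ) = 0
        rw [show Φ a ξ = 0 from ha, map_zero] }
  have hI : IsClosed (I : Set C(X, ℂ)) := by
    have e : (I : Set C(X, ℂ)) = (fun F => Φ F ξ) ⁻¹' {0} := rfl
    rw [e]
    refine isClosed_singleton.preimage ?_
    exact (ContinuousLinearMap.apply ℂ K ξ).continuous.comp (cont_hom Φ)
  have h2 : G ∈ ContinuousMap.idealOfSet ℂ (ContinuousMap.setOfIdeal I) := by
    rw [ContinuousMap.mem_idealOfSet]
    intro x hx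
    exact h x fun F hF => ContinuousMap.notMem_setOfIdeal.1 hx hF
  rw [ContinuousMap.idealOfSet_ofIdeal_isClosed hI] at h2
  exact h2

variable {Φ}

theorem phi_congr_full {O : Set X} (hO : Nn Φ O = ⊥) {F G : C(X, ℂ)}
    (h : ∀ z ∈ Zs Φ, z ∈ O → F z = G z) : Φ F = Φ G := by
  rw [← sub_eq_zero, ← map_sub]
  ext ξ
  refine (Submodule.mem_bot ℂ).1 ?_
  rw [← hO]
  intro H hH
  have h1 : Φ (H * (F - G)) = 0 := phi_zero Φ fun z hz => by
    rw [ContinuousMap.mul_apply, ContinuousMap.sub_apply]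
    by_cases hzO : z ∈ O
    · rw [h z hz hzO, sub_self, mul_zero]
    · rw [hH z hz hzO, zero_mul]
  rw [map_mul] at h1
  exact congrArg (fun T : K →L[ℂ] K => T ξ) h1

theorem eq_of_phi {F G : C(X, ℂ)} (h : Φ F = Φ G) {z : X} (hz : z ∈ Zs Φ) : F z = G z := by
  have h1 : Φ (F - G) = 0 := by rw [map_sub, h, sub_self]
  have h2 := hz _ h1
  rwa [ContinuousMap.sub_apply, sub_eq_zero] at h2

end soft2

/-! ### The calculus of the collineation -/

section qn

variable {k : Type} [NontriviallyNormedField k] [ProperSpace k] {m : ℕ} {K : Type}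
  [NormedAddCommGroup K] [InnerProductSpace ℂ K] [CompleteSpace K]

/-- the calculus of the collineation -/
noncomputable def QN (Φ : C(XX k m, ℂ) →⋆ₐ[ℂ] (K →L[ℂ] K)) :
    C₀(PG k (m + 1), ℂ) →⋆ₙₐ[ℂ] (K →L[ℂ] K) where
  toFun ψ := Φ ((ext isOpenEmbedding_cmap ψ).comp fr)
  map_smul' a ψ := by
    have e : (ext isOpenEmbedding_cmap (a • ψ)).comp fr =
        a • ((ext isOpenEmbedding_cmap ψ).comp fr : C(XX k m, ℂ)) := by
      rw [map_smul]
      rfl
    rw [e, map_smul]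
    rfl
  map_zero' := by
    have e : (ext isOpenEmbedding_cmap (0 : C₀(PG k (m + 1), ℂ))).comp fr =
        (0 : C(XX k m, ℂ)) := by
      rw [map_zero]
      rfl
    rw [e, map_zero]
  map_add' ψ φ := by
    have e : (ext isOpenEmbedding_cmap (ψ + φ)).comp fr =
        ((ext isOpenEmbedding_cmap ψ).comp fr + (ext isOpenEmbedding_cmap φ).comp fr :
          C(XX k m, ℂ)) := by
      rw [map_add]
      rfl
    rw [e, map_add]
  map_mul' ψ φ := by
    have e : (ext isOpenEmbedding_cmap (ψ * φ)).comp fr =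
        ((ext isOpenEmbedding_cmap ψ).comp fr * (ext isOpenEmbedding_cmap φ).comp fr :
          C(XX k m, ℂ)) := by
      rw [map_mul]
      rfl
    rw [e, map_mul]
  map_star' ψ := by
    have e : (ext isOpenEmbedding_cmap (star ψ)).comp fr =
        (star ((ext isOpenEmbedding_cmap ψ).comp fr) : C(XX k m, ℂ)) := by
      rw [map_star]
      rfl
    rw [e, map_star]

theorem QN_apply (Φ : C(XX k m, ℂ) →⋆ₐ[ℂ] (K →L[ℂ] K)) (ψ : C₀(PG k (m + 1), ℂ)) :
    QN Φ ψ = Φ ((ext isOpenEmbedding_cmap ψ).comp fr) := rfl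

theorem ext_cmap (ψ : C₀(PG k (m + 1), ℂ)) (g : PG k (m + 1)) :
    ext isOpenEmbedding_cmap ψ (cmap k m g) = ψ g := ext_apply _ ψ g

theorem ext_fr (ψ : C₀(PG k (m + 1), ℂ)) {z : XX k m} (hz : z ∈ Og k m) :
    ext isOpenEmbedding_cmap ψ (fr z) = ψ (xg z) := by
  rw [← cmap_xg hz, ext_cmap]

/-- there are enough functions -/
theorem exists_psi {x y : PG k (m + 1)} (h : x ≠ y) :
    ∃ ψ : C₀(PG k (m + 1), ℂ), ψ x = 1 ∧ ψ y = 0 := by
  have hcl : IsClosed ((Set.range (cmap k m))ᶜ ∪ {cmap k m y}) :=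
    isOpenEmbedding_cmap.isOpen_range.isClosed_compl.union isClosed_singleton
  obtain ⟨f, hf0, hf1, -⟩ := exists_continuous_zero_one_of_isClosed hcl
    (isClosed_singleton (x := cmap k m x)) (by
      rw [Set.disjoint_singleton_right]
      rintro (h1 | h1)
      · exact h1 ⟨x, rfl⟩
      · exact h (cmap_injective h1))
  obtain ⟨ψ, hψ⟩ := ext_surj isOpenEmbedding_cmap (toC f) (by
    intro z hz
    rw [toC_apply, show f z = 0 from hf0 (Or.inl hz)]
    simp)
  refine ⟨ψ, ?_, ?_⟩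
  · rw [← ext_cmap, hψ, toC_apply, show f (cmap k m x) = 1 from hf1 rfl]
    simp
  · rw [← ext_cmap, hψ, toC_apply, show f (cmap k m y) = 0 from hf0 (Or.inr rfl)]
    simp

theorem exists_psi' (x : PG k (m + 1)) : ∃ ψ : C₀(PG k (m + 1), ℂ), ψ x = 1 := by
  obtain ⟨f, hf0, hf1, -⟩ := exists_continuous_zero_one_of_isClosed
    (isOpenEmbedding_cmap (k := k) (m := m)).isOpen_range.isClosed_compl
    (isClosed_singleton (x := cmap k m x)) (by
      rw [Set.disjoint_singleton_right]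
      exact fun h1 => h1 ⟨x, rfl⟩)
  obtain ⟨ψ, hψ⟩ := ext_surj isOpenEmbedding_cmap (toC f) (by
    intro z hz
    rw [toC_apply, show f z = 0 from hf0 hz]
    simp)
  refine ⟨ψ, ?_⟩
  rw [← ext_cmap, hψ, toC_apply, show f (cmap k m x) = 1 from hf1 rfl]
  simp

/-- right translation -/
noncomputable def rtr (h : PG k (m + 1)) (ψ : C₀(PG k (m + 1), ℂ)) : C₀(PG k (m + 1), ℂ) :=
  ψ.comp ⟨⟨fun g => g * h, continuous_mul_const h⟩,
    (Homeomorph.mulRight h).isClosedEmbedding.tendsto_cocompact⟩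

theorem rtr_apply (h : PG k (m + 1)) (ψ : C₀(PG k (m + 1), ℂ)) (g : PG k (m + 1)) :
    rtr h ψ g = ψ (g * h) := rfl

end qn

/-! ### Positions -/

section cls

variable {k : Type} [NontriviallyNormedField k] [ProperSpace k] {m : ℕ} {Γ K : Type} [Group Γ]
  [NormedAddCommGroup K] [InnerProductSpace ℂ K] [CompleteSpace K] {G' : Type} [Group G']

variable {a a' : G' →* PG k (m + 1)} {π : G' →* (K →L[ℂ] K)}
  {lam : Γ →* (K →L[ℂ] K)} {W : Set (K →L[ℂ] K)} {q : Γ →* PG k (m + 1)}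
  {E F : YY k m → (C(YY k m, ℂ) →⋆ₐ[ℂ] (K →L[ℂ] K))}
  {Φ : C(XX k m, ℂ) →⋆ₐ[ℂ] (K →L[ℂ] K)} (hL : Lg a a' π lam W q E F)
  (hE : ∀ a f, Φ (co (.inl a) f) = E a f) (hF : ∀ b f, Φ (co (.inr b) f) = F b f)

omit [ProperSpace k] in
theorem ln_inj {i j : Fin (m + 1)} (hij : i ≠ j) {s s' : k}
    (h : (pt (ee j + s • ee i) : YY k m) = pt (ee j + s' • ee i)) : s = s' := by
  obtain ⟨c, hc, h1⟩ := pt_inj (ln_ne hij s) (ln_ne hij s') h
  have h2 := congrFun h1 j
  have h3 := congrFun h1 i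
  simp only [ee, Pi.add_apply, Pi.smul_apply, Pi.single_eq_same, smul_eq_mul, mul_one] at h2 h3
  rw [Pi.single_eq_of_ne hij.symm, mul_zero, add_zero, mul_zero, add_zero, mul_one] at h2
  rw [Pi.single_eq_of_ne hij, zero_add, zero_add, ← h2, one_mul] at h3
  exact h3

include hL hE hF

/-- the positions of the points `e_j + t e_i`, `e_0 + .. + e_m + t e_i` -/
theorem root_pos {i j : Fin (m + 1)} (hij : i ≠ j) (hl : ∃ l, l ≠ i ∧ l ≠ j) {t s : k}
    (hs : ∀ z ∈ Zs Φ, z ∈ Og k m →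
      (xg z)⁻¹ • z (.inl (pt (ee j + t • ee i))) = pt (ee j + s • ee i))
    {z : XX k m} (hz : z ∈ Zs Φ) (hzO : z ∈ Og k m) (i' : Fin (m + 2)) :
    z (.inl (rt hij t • src k m i')) = xg z • (sp k (m + 1) (rt hij s) • src k m i') := by
  have f1 := fx_of (zs_PI hL hE hF hz) hzO
  have hz' := hs z hz hzO
  rw [sp_smul]
  refine Fin.lastCases ?_ (fun l => ?_) i'
  · rw [src_last, rt_smul_u, rt_smul_u]
    have h1 := f1.A_un hij hl (t := t) (s := s) hz'
    rw [← h1, smul_inv_smul]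
  · rw [src_castSucc]
    by_cases hlj : l = j
    · subst hlj
      rw [rt_smul_e, rt_smul_e, ← hz', smul_inv_smul]
    · rw [rt_fix hij t (ee_ne l) (by simp [ee, Ne.symm hlj]),
        rt_fix hij s (ee_ne l) (by simp [ee, Ne.symm hlj]), ← src_castSucc, xg_smul_src hzO]

/-- `h` moves the frame `x` to `x h'` -/
def Rp (Φ : C(XX k m, ℂ) →⋆ₐ[ℂ] (K →L[ℂ] K)) (h : Matrix.SpecialLinearGroup (Fin (m + 1)) k)
    (h' : PG k (m + 1)) : Prop :=
  ∀ z ∈ Zs Φ, z ∈ Og k m → ∀ i, z (.inl (h • src k m i)) = xg z • (h' • src k m i)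

variable {ι : Matrix.SpecialLinearGroup (Fin (m + 1)) k →* G'}
  (hι : ∀ g (x : YY k m), a (ι g) • x = g • x)

include hι

theorem rp_bt {h : Matrix.SpecialLinearGroup (Fin (m + 1)) k} {h' : PG k (m + 1)}
    (hr : Rp Φ h h') {z : XX k m} (hz : z ∈ Zs Φ) (hzO : z ∈ Og k m) :
    cmap k m (xg z * h') = fr (bt (a (ι h)) (a' (ι h)) z) := by
  funext i
  rw [fr_apply, bt_inl, hι, hr z hz hzO i, cmap_mul]
  rfl

theorem rp_mul (g h : Matrix.SpecialLinearGroup (Fin (m + 1)) k) (g' h' : PG k (m + 1))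
    (hg : Rp Φ g g') (hh : Rp Φ h h') : Rp Φ (g * h) (g' * h') := by
  intro z hz hzO i
  have h1 := rp_bt hL hE hF hι hg hz hzO
  have h2 := hh _ (bt_zs hL hE hF (ι g) hz) (mem_Og_of h1) i
  rw [xg_eq h1, bt_inl, hι] at h2
  rw [mul_smul, h2, mul_smul, mul_smul]

omit hι in
theorem rp_uniq [Nontrivial K] (h : Matrix.SpecialLinearGroup (Fin (m + 1)) k)
    (x y : PG k (m + 1)) (hx : Rp Φ h x) (hy : Rp Φ h y) : x = y := by
  obtain ⟨z, hz, hzO⟩ := full_nonempty (full_Og hL hE hF)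
  apply cmap_injective
  funext i
  have h1 := (hx z hz hzO i).symm.trans (hy z hz hzO i)
  exact smul_left_cancel _ h1

/-- the field homomorphism -/
theorem exists_hom [Nontrivial K] (hm : 2 ≤ m) : ∃ σ : k →+* k,
    ∀ h, Rp Φ h (sp k (m + 1) (Matrix.SpecialLinearGroup.map σ h)) := by
  classical
  have hl : ∀ i j : Fin (m + 1), ∃ l, l ≠ i ∧ l ≠ j := by
    intro i j
    by_contra hcon
    push Not at hcon
    have h1 : (Finset.univ : Finset (Fin (m + 1))) ⊆ {i, j} := fun x _ => by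
      by_cases hx : x = i
      · simp [hx]
      · simp [hcon x hx]
    have h2 := Finset.card_le_card h1
    rw [Finset.card_univ, Fintype.card_fin] at h2
    exact absurd (h2.trans (Finset.card_le_two)) (by omega)
  have hs : ∀ (i j : Fin (m + 1)) (t : k), ∃ s : k, i ≠ j → ∀ z ∈ Zs Φ, z ∈ Og k m →
      (xg z)⁻¹ • z (.inl (pt (ee j + t • ee i))) = pt (ee j + s • ee i) := by
    intro i j t
    by_cases hij : i = j
    · exact ⟨0, fun h => absurd hij h⟩
    · obtain ⟨s, hs⟩ := exists_sigma hL hE hF hij t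
      exact ⟨s, fun _ => hs⟩
  choose τ hτ using hs
  obtain ⟨σ, -, hσ⟩ := sig (n := m + 1) (by omega) (Rt := Rp Φ)
    (rp_mul hL hE hF hι) (rp_uniq hL hE hF) τ
    (fun i j hij s z hz hzO i' => root_pos hL hE hF hij (hl i j) (hτ i j s hij) hz hzO i')
    (by
      intro i j hij
      obtain ⟨z, hz, hzO⟩ := full_nonempty (full_Og hL hE hF)
      have f1 := fx_of (zs_PI hL hE hF hz) hzO
      have h1 := hτ i j 1 hij z hz hzO
      have e : (ee j + (1 : k) • ee i : Fin (m + 1) → k) = ee j + ee i := by rw [one_smul]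
      have h2 : (xg z)⁻¹ • z (.inl (pt (ee j + (1 : k) • ee i))) =
          pt (ee j + (1 : k) • ee i) := by
        rw [e]
        exact f1.A_add hij.symm
      exact (ln_inj hij (h2.symm.trans h1)).symm)
  exact ⟨σ, hσ⟩

omit hL hE hF hι in
theorem spmap_smul (σ : k →+* k) (h : Matrix.SpecialLinearGroup (Fin (m + 1)) k) (b : YY k m) :
    sp k (m + 1) (Matrix.SpecialLinearGroup.map σ h) • sgm σ (m + 1) b =
      sgm σ (m + 1) (h • b) := by
  rw [sgm_smul, sp_smul]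

/-- the positions of all points -/
theorem pos_all (hm : 1 ≤ m) {σ : k →+* k}
    (hσ : ∀ h, Rp Φ h (sp k (m + 1) (Matrix.SpecialLinearGroup.map σ h))) (b : YY k m)
    {z : XX k m} (hz : z ∈ Zs Φ) (hzO : z ∈ Og k m) : z (.inl b) = xg z • sgm σ (m + 1) b := by
  have hT : {b : YY k m | ∀ z ∈ Zs Φ, z ∈ Og k m → z (.inl b) = xg z • sgm σ (m + 1) b} =
      Set.univ := by
    refine homog hm ⟨src k m 0, fun z hz hzO => ?_⟩ ?_
    · rw [sgm_src, xg_smul_src hzO]
    · intro h b hb z hz hzO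
      have h1 := rp_bt hL hE hF hι (hσ h) hz hzO
      have h2 := hb _ (bt_zs hL hE hF (ι h) hz) (mem_Og_of h1)
      rw [xg_eq h1, bt_inl, hι, mul_smul, spmap_smul] at h2
      exact h2
  have hb : b ∈ {b : YY k m | ∀ z ∈ Zs Φ, z ∈ Og k m →
      z (.inl b) = xg z • sgm σ (m + 1) b} := by
    rw [hT]
    trivial
  exact hb z hz hzO

end cls

/-! ### The output -/

section out

variable {k : Type} [NontriviallyNormedField k] [ProperSpace k] {m : ℕ} {Γ K : Type} [Group Γ]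
  [NormedAddCommGroup K] [InnerProductSpace ℂ K] [CompleteSpace K] {G' : Type} [Group G']

/-- **the output of [N-CLS]**: the calculus of the collineation `x`, with `E b = x σ_*(b)`. -/
structure ClsO (a : G' →* PG k (m + 1)) (π : G' →* (K →L[ℂ] K)) (lam : Γ →* (K →L[ℂ] K))
    (W : Set (K →L[ℂ] K)) (q : Γ → PG k (m + 1))
    (E : YY k m → (C(YY k m, ℂ) →⋆ₐ[ℂ] (K →L[ℂ] K))) (σ : k →+* k)
    (Q : C₀(PG k (m + 1), ℂ) →⋆ₙₐ[ℂ] (K →L[ℂ] K)) : Prop where
  nd : ∀ ξ, (∀ ψ, Q ψ ξ = 0) → ξ = 0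
  cm : ∀ ψ, RC.Cm W (Q ψ)
  cov : ∀ γ (ψ ψ' : C₀(PG k (m + 1), ℂ)), (∀ x, ψ' x = ψ ((q γ)⁻¹ * x)) →
    lam γ * Q ψ * lam γ⁻¹ = Q ψ'
  pcov : ∀ e (x : PG k (m + 1)),
    (∀ b : YY k m, x • sgm σ (m + 1) b = sgm σ (m + 1) (a e • b)) →
    ∀ ψ ψ' : C₀(PG k (m + 1), ℂ), (∀ y, ψ' y = ψ (y * x)) → π e * Q ψ * π e⁻¹ = Q ψ'
  mulE : ∀ b (f : C(YY k m, ℂ)) (ψ ψ' : C₀(PG k (m + 1), ℂ)),
    (∀ x, ψ' x = f (x • sgm σ (m + 1) b) * ψ x) → E b f * Q ψ = Q ψ'
  gen : ∀ T : K →L[ℂ] K, (∀ b f, T * E b f = E b f * T) → ∀ ψ, T * Q ψ = Q ψ * T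

variable {a a' : G' →* PG k (m + 1)} {π : G' →* (K →L[ℂ] K)}
  {lam : Γ →* (K →L[ℂ] K)} {W : Set (K →L[ℂ] K)} {q : Γ →* PG k (m + 1)}
  {E F : YY k m → (C(YY k m, ℂ) →⋆ₐ[ℂ] (K →L[ℂ] K))}
  {Φ : C(XX k m, ℂ) →⋆ₐ[ℂ] (K →L[ℂ] K)} (hL : Lg a a' π lam W q E F)
  (hE : ∀ a f, Φ (co (.inl a) f) = E a f) (hF : ∀ b f, Φ (co (.inr b) f) = F b f)

include hL hE hF

theorem q_congr {G : C(XX k m, ℂ)} {ψ : C₀(PG k (m + 1), ℂ)}
    (h : ∀ z ∈ Zs Φ, z ∈ Og k m → G z = ψ (xg z)) : Φ G = QN Φ ψ := by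
  rw [QN_apply]
  refine phi_congr_full (full_Og hL hE hF) fun z hz hzO => ?_
  rw [h z hz hzO, ContinuousMap.comp_apply, ext_fr ψ hzO]

theorem nd_Q {ξ : K} (h : ∀ ψ, QN Φ ψ ξ = 0) : ξ = 0 := by
  refine (Submodule.mem_bot ℂ).1 ?_
  rw [← full_Og hL hE hF]
  intro G hG
  refine ideal_mem Φ fun z hz => ?_
  have h1 : z ∈ Zs Φ := fun F hF => hz F (by rw [hF]; rfl)
  refine hG z h1 fun hzO => ?_
  obtain ⟨ψ, hψ⟩ := exists_psi' (xg z)
  have h2 := hz _ (h ψ)
  rw [ContinuousMap.comp_apply, ext_fr ψ hzO, hψ] at h2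
  exact one_ne_zero h2

/-- **[N-CLS]** a commuting leg is classical -/
theorem clsO_of [Nontrivial K] (hm : 2 ≤ m)
    {ι : Matrix.SpecialLinearGroup (Fin (m + 1)) k →* G'}
    (hι : ∀ g (x : YY k m), a (ι g) • x = g • x) :
    ∃ σ : k →+* k, ClsO a π lam W q E σ (QN Φ) := by
  obtain ⟨σ, hσ⟩ := exists_hom hL hE hF hι hm
  have hpos := fun b {z} => pos_all hL hE hF hι (by omega) hσ b (z := z)
  refine ⟨σ, ?_, ?_, ?_, ?_, ?_, ?_⟩
  · intro ξ h
    exact nd_Q hL hE hF h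
  · intro ψ w hw
    exact ((phi_cm hL hE hF hw _).symm : Commute _ _).eq
  · intro γ ψ ψ' h
    obtain ⟨c', hc'⟩ := phi_lam hL hE hF γ
    rw [QN_apply, hc']
    refine q_congr hL hE hF fun z hz hzO => ?_
    change ext isOpenEmbedding_cmap ψ (fr (dl (cg (q γ)⁻¹) c' z)) = _
    rw [← fr_dl (q γ)⁻¹ c' hzO, ext_cmap, h]
  · intro e x hx ψ ψ' h
    rw [QN_apply, phi_pi hL hE hF]
    refine q_congr hL hE hF fun z hz hzO => ?_
    change ext isOpenEmbedding_cmap ψ (fr (bt (a e) (a' e) z)) = _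
    have h1 : fr (bt (a e) (a' e) z) = cmap k m (xg z * x) := by
      funext i
      rw [fr_apply, bt_inl, hpos _ hz hzO, ← hx, sgm_src, cmap_mul]
      rfl
    rw [h1, ext_cmap, h]
  · intro b f ψ ψ' h
    rw [← hE, QN_apply, ← map_mul]
    refine q_congr hL hE hF fun z hz hzO => ?_
    rw [ContinuousMap.mul_apply, co_apply, ContinuousMap.comp_apply, ext_fr ψ hzO,
      hpos b hz hzO, h]
  · intro T hT ψ
    have h1 := comm_all (Φ.comp ((fr (k := k) (m := m)).compStarAlgHom' ℂ ℂ)) (T := T) (by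
      intro i f
      have e1 : (Φ.comp ((fr (k := k) (m := m)).compStarAlgHom' ℂ ℂ)) (co i f) =
        Φ (co (.inl (src k m i)) f) := rfl
      rw [e1, hE]
      exact hT _ f) (ext isOpenEmbedding_cmap ψ)
    exact h1.eq

end out

end Vale.Agent.P092.H121
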