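import Vale.Agent.P092.H121.Lin
import Vale.Agent.P092.H35.Gp
import Vale.Agent.P092.H35.Spg
import Vale.Agent.P092.RC.Cc

/-!
P092, TEAM N, block [N-CLS] (helper121): the dual action of `PGL_n(k)` on the hyperplanes, and the
frame map on families `z` of points and hyperplanes.
-/

set_option linter.all false

open scoped LinearAlgebra.Projectivization
open Matrix Topology Filter TopologicalSpace

namespace Vale.Agent.P092.H121

open Vale.Agent.P092.H820
open Vale.Agent.P092.H789
open Vale.Agent.P092.H35 (incN incN_closed hyp src_hyp src_not_hyp gpos_of_sep sp)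

/-! ### The dual action -/

section dual

variable {k : Type} [NontriviallyNormedField k] {n : ℕ}

/-- the inverse transpose -/
def tgl : GL (Fin n) k →* GL (Fin n) k where
  toFun g := ⟨(g⁻¹).1ᵀ, g.1ᵀ, by
    rw [← transpose_mul, ← Units.val_mul, mul_inv_cancel, Units.val_one, transpose_one], by
    rw [← transpose_mul, ← Units.val_mul, inv_mul_cancel, Units.val_one, transpose_one]⟩
  map_one' := by
    apply Units.ext
    change ((1 : GL (Fin n) k)⁻¹).1ᵀ = 1
    rw [inv_one, Units.val_one, transpose_one]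
  map_mul' g h := by
    apply Units.ext
    change ((g * h)⁻¹).1ᵀ = (g⁻¹).1ᵀ * (h⁻¹).1ᵀ
    rw [_root_.mul_inv_rev, Units.val_mul, transpose_mul]

theorem tgl_val (g : GL (Fin n) k) : (tgl g).1 = (g⁻¹).1ᵀ := rfl

theorem tgl_tgl (g : GL (Fin n) k) : tgl (tgl g) = g := by
  apply Units.ext
  change (((tgl g)⁻¹).1)ᵀ = g.1
  change (g.1ᵀ)ᵀ = g.1
  rw [transpose_transpose]

theorem tgl_center : Subgroup.center (GL (Fin n) k) ≤ (Subgroup.center (GL (Fin n) k)).comap tgl := by
  intro g hg
  rw [Subgroup.mem_comap, Subgroup.mem_center_iff]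
  intro h
  have h1 := Subgroup.mem_center_iff.1 hg (tgl h)
  have h2 := congrArg tgl h1
  rwa [map_mul, map_mul, tgl_tgl] at h2

/-- the inverse transpose on `PGL_n(k)` -/
def tpg : PG k n →* PG k n := QuotientGroup.map _ _ tgl tgl_center

theorem tpg_mk (g : GL (Fin n) k) : tpg (QuotientGroup.mk g : PG k n) = QuotientGroup.mk (tgl g) :=
  rfl

theorem tpg_tpg (x : PG k n) : tpg (tpg x) = x := by
  obtain ⟨g, rfl⟩ := QuotientGroup.mk_surjective x
  rw [tpg_mk, tpg_mk, tgl_tgl]

end dual

section orth

variable {k : Type} [NontriviallyNormedField k] {m : ℕ}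

theorem orth_gl (g : GL (Fin (m + 1)) k) (a b : YY k m) :
    Projectivization.orthogonal (g • a) (tgl g • b) ↔ Projectivization.orthogonal a b := by
  obtain ⟨v, hv, rfl⟩ := exists_pt a
  obtain ⟨w, hw, rfl⟩ := exists_pt b
  rw [smul_pt g hv, smul_pt _ hw, orth_pt (mulVec_ne g hv) (mulVec_ne _ hw), orth_pt hv hw]
  have e : (g.1 *ᵥ v) ⬝ᵥ ((tgl g).1 *ᵥ w) = v ⬝ᵥ w := by
    rw [tgl_val, dotProduct_mulVec, vecMul_transpose, mulVec_mulVec, ← Units.val_mul,
      inv_mul_cancel, Units.val_one, one_mulVec]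
  rw [e]

theorem orth_pg (x : PG k (m + 1)) (a b : YY k m) :
    Projectivization.orthogonal (x • a) (tpg x • b) ↔ Projectivization.orthogonal a b := by
  obtain ⟨g, rfl⟩ := QuotientGroup.mk_surjective x
  rw [tpg_mk, mk_smul, mk_smul]
  exact orth_gl g a b

theorem sp_smul (h : SpecialLinearGroup (Fin (m + 1)) k) (a : YY k m) :
    sp k (m + 1) h • a = h • a := rfl

theorem ct_smul (h : SpecialLinearGroup (Fin (m + 1)) k) (a : YY k m) :
    RC.ct h • a = tpg (sp k (m + 1) h) • a := by
  have e : tpg (sp k (m + 1) h) = sp k (m + 1) (RC.ct h) := by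
    change (QuotientGroup.mk (tgl (SpecialLinearGroup.toGL h)) : PG k (m + 1)) =
      QuotientGroup.mk (SpecialLinearGroup.toGL (RC.ct h))
    congr 1
    apply Units.ext
    rfl
  rw [e, sp_smul]

theorem orth_sl (h : SpecialLinearGroup (Fin (m + 1)) k) (a b : YY k m) :
    Projectivization.orthogonal (h • a) (RC.ct h • b) ↔ Projectivization.orthogonal a b := by
  rw [ct_smul, ← sp_smul, orth_pg]

end orth

/-! ### The frame of a family -/

section frame

variable {k : Type} [NontriviallyNormedField k] {m : ℕ}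

variable (k m) in
/-- families of points and hyperplanes, indexed by points and hyperplanes -/
abbrev XX : Type := (YY k m ⊕ YY k m) → YY k m

/-- the frame of a family -/
def fr : C(XX k m, Fin (m + 2) → YY k m) := ⟨fun z i => z (.inl (src k m i)), by fun_prop⟩

theorem fr_apply (z : XX k m) (i : Fin (m + 2)) : fr z i = z (.inl (src k m i)) := rfl

variable (k m) in
/-- the families whose frame is in general position -/
def Og : Set (XX k m) := {z | GPos (fr z)}

theorem Og_open : IsOpen (Og k m) := isOpen_gpos.preimage fr.continuous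

open Classical in
/-- the collineation defined by the frame -/
noncomputable def xg (z : XX k m) : PG k (m + 1) :=
  if h : GPos (fr z) then frH.symm ⟨fr z, h⟩ else 1

theorem cmap_xg {z : XX k m} (hz : z ∈ Og k m) : cmap k m (xg z) = fr z := by
  have h1 : xg z = frH.symm ⟨fr z, hz⟩ := dif_pos hz
  rw [h1, ← frH_apply, Homeomorph.apply_symm_apply]

theorem mem_Og_of {z : XX k m} {g : PG k (m + 1)} (h : cmap k m g = fr z) : z ∈ Og k m := by
  change GPos (fr z)
  rw [← h]
  exact gpos_cmap g

theorem xg_eq {z : XX k m} {g : PG k (m + 1)} (h : cmap k m g = fr z) : xg z = g := by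
  apply cmap_injective
  rw [cmap_xg (mem_Og_of h), h]

theorem xg_smul_src {z : XX k m} (hz : z ∈ Og k m) (i : Fin (m + 2)) :
    xg z • src k m i = z (.inl (src k m i)) := congrFun (cmap_xg hz) i

theorem xg_contOn : ContinuousOn (xg (k := k) (m := m)) (Og k m) := by
  rw [continuousOn_iff_continuous_restrict]
  have e : (Og k m).domRestrict xg = fun z : Og k m => frH.symm ⟨fr z.1, z.2⟩ := by
    funext z
    exact dif_pos z.2
  rw [e]
  exact frH.symm.continuous.comp
    (Continuous.subtype_mk (fr.continuous.comp continuous_subtype_val) _)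

/-- pointwise incidence -/
def PI (z : XX k m) : Prop := ∀ a b, Projectivization.orthogonal a b →
  Projectivization.orthogonal (z (.inl a)) (z (.inr b))

/-- relative to its frame, an incidence preserving family is a morphism fixing the frame -/
theorem fx_of {z : XX k m} (hI : PI z) (hz : z ∈ Og k m) :
    Fx (fun a => (xg z)⁻¹ • z (.inl a)) (fun b => (tpg (xg z))⁻¹ • z (.inr b)) where
  inc a b hab := by
    rw [← orth_pg (xg z), smul_inv_smul, smul_inv_smul]
    exact hI a b hab
  fix i := by
    change (xg z)⁻¹ • z (.inl (src k m i)) = _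
    rw [← xg_smul_src hz, inv_smul_smul]

/-- the action on families, through the indices -/
noncomputable def bt (x y : PG k (m + 1)) : C(XX k m, XX k m) :=
  ⟨fun z s => z (Sum.map (fun a => x • a) (fun b => y • b) s),
    continuous_pi fun s => continuous_apply _⟩

theorem bt_inl (x y : PG k (m + 1)) (z : XX k m) (a : YY k m) :
    bt x y z (.inl a) = z (.inl (x • a)) := rfl

theorem bt_inr (x y : PG k (m + 1)) (z : XX k m) (a : YY k m) :
    bt x y z (.inr a) = z (.inr (y • a)) := rfl

theorem bt_bt_inv (x y : PG k (m + 1)) (z : XX k m) : bt x y (bt x⁻¹ y⁻¹ z) = z := by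
  funext s
  rcases s with a | b
  · rw [bt_inl, bt_inl, inv_smul_smul]
  · rw [bt_inr, bt_inr, inv_smul_smul]

theorem PI_bt {z : XX k m} (hI : PI z) {x y : PG k (m + 1)}
    (h : ∀ p l : YY k m, Projectivization.orthogonal (x • p) (y • l) ↔ Projectivization.orthogonal p l) :
    PI (bt x y z) := by
  intro a b hab
  rw [bt_inl, bt_inr]
  exact hI _ _ ((h a b).2 hab)

/-- transformations of the values -/
def dl (c c' : C(YY k m, YY k m)) : C(XX k m, XX k m) :=
  ⟨fun z s => Sum.elim (fun a => c (z (.inl a))) (fun b => c' (z (.inr b))) s, by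
    refine continuous_pi fun s => ?_
    rcases s with a | b
    · exact c.continuous.comp (continuous_apply _)
    · exact c'.continuous.comp (continuous_apply _)⟩

theorem dl_inl (c c' : C(YY k m, YY k m)) (z : XX k m) (a : YY k m) :
    dl c c' z (.inl a) = c (z (.inl a)) := rfl

theorem dl_inr (c c' : C(YY k m, YY k m)) (z : XX k m) (a : YY k m) :
    dl c c' z (.inr a) = c' (z (.inr a)) := rfl

/-- the homeomorphism of the points given by an element of `PGL` -/
noncomputable def cg (x : PG k (m + 1)) : C(YY k m, YY k m) := ⟨fun a => x • a, continuous_const_smul x⟩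

theorem fr_dl (x : PG k (m + 1)) (c' : C(YY k m, YY k m)) {z : XX k m} (hz : z ∈ Og k m) :
    cmap k m (x * xg z) = fr (dl (cg x) c' z) := by
  funext i
  rw [cmap_mul, cmap_xg hz]
  rfl

theorem dl_mem_Og (x : PG k (m + 1)) (c' : C(YY k m, YY k m)) {z : XX k m} (hz : z ∈ Og k m) :
    dl (cg x) c' z ∈ Og k m := mem_Og_of (fr_dl x c' hz)

theorem xg_dl (x : PG k (m + 1)) (c' : C(YY k m, YY k m)) {z : XX k m} (hz : z ∈ Og k m) :
    xg (dl (cg x) c' z) = x * xg z := xg_eq (fr_dl x c' hz)

theorem dl_mem_Og_iff (x : PG k (m + 1)) (c' : C(YY k m, YY k m)) {z : XX k m} :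
    dl (cg x) c' z ∈ Og k m ↔ z ∈ Og k m := by
  refine ⟨fun h => ?_, dl_mem_Og x c'⟩
  have h1 := dl_mem_Og x⁻¹ (ContinuousMap.id _) h
  refine mem_Og_of (g := xg (dl (cg x⁻¹) (ContinuousMap.id _) (dl (cg x) c' z))) ?_
  rw [cmap_xg h1]
  funext i
  change x⁻¹ • (x • z (.inl (src k m i))) = z (.inl (src k m i))
  rw [inv_smul_smul]

end frame

/-! ### Elements fixing a line -/

section line

variable {k : Type} [NontriviallyNormedField k] {m : ℕ}

theorem lin_ne {i j : Fin (m + 1)} (hij : i ≠ j) : (ee i : Fin (m + 1) → k) j = 0 := by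
  simp [ee, hij.symm]

/-- a collineation which fixes three points of a coordinate line fixes it pointwise -/
theorem fix_line (y : PG k (m + 1)) {i j : Fin (m + 1)} (hij : i ≠ j)
    (hi : y • (pt (ee i) : YY k m) = pt (ee i)) (hj : y • (pt (ee j) : YY k m) = pt (ee j))
    (hs : y • (pt (ee i + ee j) : YY k m) = pt (ee i + ee j)) {α β : k}
    (hv : (α • ee j + β • ee i : Fin (m + 1) → k) ≠ 0) :
    y • (pt (α • ee j + β • ee i) : YY k m) = pt (α • ee j + β • ee i) := by
  obtain ⟨g, rfl⟩ := QuotientGroup.mk_surjective y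
  rw [mk_smul_pt g (ee_ne i)] at hi
  rw [mk_smul_pt g (ee_ne j)] at hj
  rw [mk_smul_pt g (add_ne hij)] at hs
  obtain ⟨a, ha0, ha⟩ := pt_inj (mulVec_ne g (ee_ne i)) (ee_ne i) hi
  obtain ⟨c, hc0, hc⟩ := pt_inj (mulVec_ne g (ee_ne j)) (ee_ne j) hj
  obtain ⟨d, hd0, hd⟩ := pt_inj (mulVec_ne g (add_ne hij)) (add_ne hij) hs
  rw [mulVec_add, ha, hc] at hd
  have h1 : a = d := by
    have := congrFun hd i
    simpa [ee, hij] using this
  have h2 : c = d := by
    have := congrFun hd j
    simpa [ee, hij.symm] using this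
  rw [mk_smul_pt g hv]
  refine pt_eq_of (mulVec_ne g hv) (c := d) ?_
  rw [mulVec_add, mulVec_smul, mulVec_smul, ha, hc, h1, h2, smul_add, smul_comm α d,
    smul_comm β d]

end line

end Vale.Agent.P092.H121
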