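import Vale.Agent.P092.H171.Ej
import Vale.Agent.P092.H411.NAgr

/-!
P092, TEAM N, block [N-CLS] (helper121): the support of a calculus, without measures.
`Zs Φ` is the support; `Nn Φ O` is the space of the vectors killed by all functions which vanish on
the support off `O`; `O` has full measure iff `Nn Φ O = ⊥`.
-/

set_option linter.all false

namespace Vale.Agent.P092.H121

open Topology TopologicalSpace Filter Set
open Vale.Agent.P092.H171 (co co_apply cont_hom conj_eq comm_all)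
open Vale.Agent.P092.H466 (toC toC_apply)
open ContinuousLinearMap

section soft

variable {X : Type*} [TopologicalSpace X] [CompactSpace X] [T2Space X]
  {K : Type*} [NormedAddCommGroup K] [InnerProductSpace ℂ K] [CompleteSpace K]
  (Φ : C(X, ℂ) →⋆ₐ[ℂ] (K →L[ℂ] K))

/-- the support -/
def Zs : Set X := {z | ∀ F, Φ F = 0 → F z = 0}

theorem phi_zero {F : C(X, ℂ)} (h : ∀ z ∈ Zs Φ, F z = 0) : Φ F = 0 := by
  let I : Ideal C(X, ℂ) := RingHom.ker Φ
  have hI : IsClosed (I : Set C(X, ℂ)) := by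
    have e : (I : Set C(X, ℂ)) = Φ ⁻¹' {0} := by
      ext F
      exact RingHom.mem_ker
    rw [e]
    exact isClosed_singleton.preimage (cont_hom Φ)
  have h2 : F ∈ ContinuousMap.idealOfSet ℂ (ContinuousMap.setOfIdeal I) := by
    rw [ContinuousMap.mem_idealOfSet]
    intro x hx
    exact h x fun G hG => ContinuousMap.notMem_setOfIdeal.1 hx (RingHom.mem_ker.2 hG)
  rw [ContinuousMap.idealOfSet_ofIdeal_isClosed hI] at h2
  exact RingHom.mem_ker.1 h2

theorem phi_congr {F G : C(X, ℂ)} (h : ∀ z ∈ Zs Φ, F z = G z) : Φ F = Φ G := by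
  have h1 : Φ (F - G) = 0 := phi_zero Φ fun z hz => by
    rw [ContinuousMap.sub_apply, h z hz, sub_self]
  rw [map_sub, sub_eq_zero] at h1
  exact h1

/-- the vectors which are carried by the complement of `O` -/
def Nn (O : Set X) : Submodule ℂ K where
  carrier := {ξ | ∀ F : C(X, ℂ), (∀ z ∈ Zs Φ, z ∉ O → F z = 0) → Φ F ξ = 0}
  zero_mem' := fun F _ => map_zero _
  add_mem' := fun {a b} ha hb F hF => by rw [map_add, ha F hF, hb F hF, add_zero]
  smul_mem' := fun c a ha F hF => by rw [map_smul, ha F hF, smul_zero]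

variable {Φ}

theorem mem_Nn {O : Set X} {ξ : K} :
    ξ ∈ Nn Φ O ↔ ∀ F : C(X, ℂ), (∀ z ∈ Zs Φ, z ∉ O → F z = 0) → Φ F ξ = 0 := Iff.rfl

theorem Nn_closed (O : Set X) : IsClosed (Nn Φ O : Set K) := by
  have e : (Nn Φ O : Set K) = ⋂ F : C(X, ℂ), ⋂ _ : (∀ z ∈ Zs Φ, z ∉ O → F z = 0),
      {ξ | Φ F ξ = 0} := by
    ext ξ
    simp only [Set.mem_iInter]
    exact mem_Nn
  rw [e]
  exact isClosed_iInter fun F => isClosed_iInter fun _ =>
    isClosed_eq (Φ F).continuous continuous_const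

theorem full_mono {O O' : Set X} (h : Nn Φ O = ⊥) (hs : ∀ z ∈ Zs Φ, z ∈ O → z ∈ O') :
    Nn Φ O' = ⊥ := by
  rw [eq_bot_iff]
  intro ξ hξ
  rw [← h]
  exact fun F hF => hξ F fun z hz hzO => hF z hz fun h' => hzO (hs z hz h')

theorem full_inter {O O' : Set X} (h : Nn Φ O = ⊥) (h' : Nn Φ O' = ⊥) : Nn Φ (O ∩ O') = ⊥ := by
  rw [eq_bot_iff]
  intro ξ hξ
  rw [← h]
  intro F hF
  have h1 : Φ F ξ ∈ Nn Φ O' := by
    intro G hG
    have h2 := hξ (G * F) fun z hz hzO => by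
      rw [ContinuousMap.mul_apply]
      by_cases hzO' : z ∈ O'
      · rw [hF z hz fun h0 => hzO ⟨h0, hzO'⟩, mul_zero]
      · rw [hG z hz hzO', zero_mul]
    rw [map_mul] at h2
    exact h2
  rw [h'] at h1
  exact (Submodule.mem_bot ℂ).1 h1

theorem full_univ : Nn Φ univ = ⊥ := by
  rw [eq_bot_iff]
  intro ξ hξ
  have h1 := hξ 1 fun z _ hz => absurd (mem_univ z) hz
  rw [map_one] at h1
  exact (Submodule.mem_bot ℂ).2 h1

theorem full_iInter {ι : Type*} (s : Finset ι) {O : ι → Set X} (h : ∀ i ∈ s, Nn Φ (O i) = ⊥) :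
    Nn Φ (⋂ i ∈ s, O i) = ⊥ := by
  classical
  induction s using Finset.induction_on with
  | empty => simpa using full_univ
  | insert a s ha ih =>
    rw [Finset.set_biInter_insert]
    exact full_inter (h a (Finset.mem_insert_self a s))
      (ih fun i hi => h i (Finset.mem_insert_of_mem hi))

theorem full_nonempty [Nontrivial K] {O : Set X} (h : Nn Φ O = ⊥) : ∃ z ∈ Zs Φ, z ∈ O := by
  by_contra hc
  push Not at hc
  obtain ⟨ξ, hξ⟩ := exists_ne (0 : K)
  refine hξ ((Submodule.mem_bot ℂ).1 ?_)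
  rw [← h]
  intro F hF
  rw [phi_zero Φ fun z hz => hF z hz (hc z hz)]
  rfl

theorem notMem_of_top {O : Set X} (hO : IsOpen O) (h : Nn Φ O = ⊤) {z : X} (hz : z ∈ Zs Φ) :
    z ∉ O := by
  intro hzO
  obtain ⟨f, hf0, hf1, -⟩ := exists_continuous_zero_one_of_isClosed
    hO.isClosed_compl (isClosed_singleton (x := z)) (by
      rw [Set.disjoint_singleton_right]
      exact fun h' => h' hzO)
  have h1 : Φ (toC f) = 0 := by
    ext ξ
    have h2 : ξ ∈ Nn Φ O := by
      rw [h]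
      trivial
    refine h2 _ fun z' _ hz' => ?_
    rw [toC_apply, show f z' = 0 from hf0 hz']
    simp
  have h3 := hz _ h1
  rw [toC_apply, show f z = 1 from hf1 rfl] at h3
  simp at h3

/-- an invariant continuous function is constant on the support -/
theorem const_of_dich [Nontrivial K] {Y : Type*} [TopologicalSpace Y] [T2Space Y] {O : Set X}
    (hO : IsOpen O) {w : X → Y} (hw : ContinuousOn w O)
    (hd : ∀ U : Set Y, IsOpen U → Nn Φ (O ∩ w ⁻¹' U) = ⊥ ∨ Nn Φ (O ∩ w ⁻¹' U) = ⊤)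
    {z z' : X} (hz : z ∈ Zs Φ) (hzO : z ∈ O) (hz' : z' ∈ Zs Φ) (hzO' : z' ∈ O) : w z = w z' := by
  by_contra hne
  obtain ⟨U, V, hU, hV, hzU, hzV, hUV⟩ := t2_separation hne
  have h1 : Nn Φ (O ∩ w ⁻¹' U) = ⊥ := by
    rcases hd U hU with h | h
    · exact h
    · exact absurd ⟨hzO, hzU⟩ (notMem_of_top (hw.isOpen_inter_preimage hO hU) h hz)
  have h2 : Nn Φ (O ∩ w ⁻¹' V) = ⊥ := by
    rcases hd V hV with h | h
    · exact h
    · exact absurd ⟨hzO', hzV⟩ (notMem_of_top (hw.isOpen_inter_preimage hO hV) h hz')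
  obtain ⟨y, -, hy⟩ := full_nonempty (full_inter h1 h2)
  exact Set.disjoint_left.1 hUV hy.1.2 hy.2.2

/-- symmetries of the calculus preserve the support -/
theorem zs_map {U V : K →L[ℂ] K} (hVU : V * U = 1) {α : C(X, X)}
    (h : ∀ F, Φ F * U = U * Φ (F.comp α)) {z : X} (hz : z ∈ Zs Φ) : α z ∈ Zs Φ := by
  intro F hF
  have h1 := h F
  rw [hF, zero_mul] at h1
  have h2 : Φ (F.comp α) = 0 := by
    calc Φ (F.comp α) = V * U * Φ (F.comp α) := by rw [hVU, one_mul]
      _ = V * (U * Φ (F.comp α)) := by rw [mul_assoc]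
      _ = 0 := by rw [← h1, mul_zero]
  exact hz _ h2

theorem nn_map {U V : K →L[ℂ] K} (hVU : V * U = 1) {α : C(X, X)}
    (h : ∀ F, Φ F * U = U * Φ (F.comp α)) {O O' : Set X}
    (hO : ∀ z ∈ Zs Φ, α z ∈ O' → z ∈ O) {ξ : K} (hξ : ξ ∈ Nn Φ O) : U ξ ∈ Nn Φ O' := by
  intro F hF
  have h1 : Φ (F.comp α) ξ = 0 := hξ _ fun z hz hzO =>
    hF _ (zs_map hVU h hz) fun h' => hzO (hO z hz h')
  have h2 := congrArg (fun T : K →L[ℂ] K => T ξ) (h F)
  change Φ F (U ξ) = U (Φ (F.comp α) ξ) at h2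
  rw [h2, h1, map_zero]

theorem nn_comm {T : K →L[ℂ] K} (h : ∀ F, Commute T (Φ F)) {O : Set X} {ξ : K}
    (hξ : ξ ∈ Nn Φ O) : T ξ ∈ Nn Φ O := by
  intro F hF
  have h2 := congrArg (fun T : K →L[ℂ] K => T ξ) (h F).eq
  change T (Φ F ξ) = Φ F (T ξ) at h2
  rw [← h2, hξ F hF, map_zero]

/-- intersection with a set of full measure -/
theorem nn_inter {O O' : Set X} (h' : Nn Φ O' = ⊥) : Nn Φ (O ∩ O') = Nn Φ O := by
  refine le_antisymm (fun ξ hξ F hF => ?_) fun ξ hξ F hF => hξ F fun z hz hzO =>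
    hF z hz fun h => hzO h.1
  have h1 : Φ F ξ ∈ Nn Φ O' := by
    intro G hG
    have h2 := hξ (G * F) fun z hz hzO => by
      rw [ContinuousMap.mul_apply]
      by_cases hzO' : z ∈ O'
      · rw [hF z hz fun h0 => hzO ⟨h0, hzO'⟩, mul_zero]
      · rw [hG z hz hzO', zero_mul]
    rw [map_mul] at h2
    exact h2
  rw [h'] at h1
  exact (Submodule.mem_bot ℂ).1 h1

end soft

section joint

variable {P : Type*} [TopologicalSpace P] [CompactSpace P] [T2Space P] {ι : Type*}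
  {K : Type*} [NormedAddCommGroup K] [InnerProductSpace ℂ K] [CompleteSpace K]
  {Φ : C(ι → P, ℂ) →⋆ₐ[ℂ] (K →L[ℂ] K)}

/-- closed relations hold on the support -/
theorem zs_rel {i j : ι} {I : Set (P × P)} (hI : IsClosed I)
    (h : ∀ u v : C(P, ℂ), (∀ x ∈ tsupport u, ∀ y ∈ tsupport v, (x, y) ∉ I) →
      Φ (co i u) * Φ (co j v) = 0) {z : ι → P} (hz : z ∈ Zs Φ) : (z i, z j) ∈ I := by
  by_contra hc
  have hz' : (z i, z j) ∈ Iᶜ := hc
  obtain ⟨U, V, hU, hV, hzU, hzV, hUV⟩ := isOpen_prod_iff.1 hI.isOpen_compl _ _ hz'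
  have hb : ∀ (x : P) (U : Set P), IsOpen U → x ∈ U →
      ∃ f : C(P, ℂ), f x = 1 ∧ tsupport f ⊆ U := by
    intro x U hU hx
    obtain ⟨W, hW, hxW, hWU⟩ := exists_open_between_and_isCompact_closure
      (isCompact_singleton (x := x)) hU (by simpa using hx)
    obtain ⟨f, hf0, hf1, -⟩ := exists_continuous_zero_one_of_isClosed
      hW.isClosed_compl (isClosed_singleton (x := x)) (by
        rw [Set.disjoint_singleton_right]
        exact fun h' => h' (hxW rfl))
    refine ⟨toC f, by rw [toC_apply, show f x = 1 from hf1 rfl]; simp, ?_⟩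
    refine subset_trans (closure_mono (t := W) ?_) hWU.1
    intro y hy
    by_contra hyW
    refine hy ?_
    rw [toC_apply, show f y = 0 from hf0 hyW]
    simp
  obtain ⟨u, hu1, hu2⟩ := hb _ _ hU hzU
  obtain ⟨v, hv1, hv2⟩ := hb _ _ hV hzV
  have h1 : Φ (co i u * co j v) = 0 := by
    rw [map_mul]
    exact h u v fun x hx y hy hxy => hUV ⟨hu2 hx, hv2 hy⟩ hxy
  have h2 := hz _ h1
  rw [ContinuousMap.mul_apply, co_apply, co_apply, hu1, hv1, mul_one] at h2
  exact one_ne_zero h2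

/-- a relation which holds nowhere -/
theorem full_rel {i j : ι} {I : Set (P × P)}
    (h : ∀ ξ, (∀ u v : C(P, ℂ), (∀ x ∈ tsupport u, ∀ y ∈ tsupport v, (x, y) ∉ I) →
      Φ (co i u) (Φ (co j v) ξ) = 0) → ξ = 0) : Nn Φ {z | (z i, z j) ∉ I} = ⊥ := by
  rw [eq_bot_iff]
  intro ξ hξ
  refine (Submodule.mem_bot ℂ).2 (h ξ fun u v huv => ?_)
  have h1 : Φ (co i u * co j v) ξ = 0 := by
    refine hξ _ fun z _ hz => ?_
    have hz' : (z i, z j) ∈ I := by
      by_contra hc
      exact hz hc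
    rw [ContinuousMap.mul_apply, co_apply, co_apply]
    by_cases hu : z i ∈ tsupport u
    · by_cases hv : z j ∈ tsupport v
      · exact absurd hz' (huv _ hu _ hv)
      · rw [image_eq_zero_of_notMem_tsupport hv, mul_zero]
    · rw [image_eq_zero_of_notMem_tsupport hu, zero_mul]
  rw [map_mul] at h1
  exact h1

end joint

section closedsub

variable {K : Type*} [NormedAddCommGroup K] [InnerProductSpace ℂ K] [CompleteSpace K]

end closedsub

end Vale.Agent.P092.H121
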