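import Vale.Agent.P092.H121.Dual
import Vale.Agent.P092.H121.Soft

/-!
P092, TEAM N, block [N-CLS] (helper121): the data of a commuting leg, the zero-one law for the
position of a fifth point on a coordinate line, the functions `σ_ij`.
-/

set_option linter.all false

open scoped LinearAlgebra.Projectivization
open Matrix Topology Filter TopologicalSpace Set

namespace Vale.Agent.P092.H121

open Vale.Agent.P092.H820
open Vale.Agent.P092.H789
open Vale.Agent.P092.H171 (co co_apply conj_eq comm_all exists_joint)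
open Vale.Agent.P092.H35 (incN incN_closed hyp src_hyp src_not_hyp gpos_of_sep sp)

/-- the root elements `1 + s E_ij` -/
abbrev rt {k : Type} [NontriviallyNormedField k] {m : ℕ} {i j : Fin (m + 1)} (hij : i ≠ j)
    (s : k) : Matrix.SpecialLinearGroup (Fin (m + 1)) k :=
  Matrix.SpecialLinearGroup.transvection hij s

section rts

variable {k : Type} [NontriviallyNormedField k] {m : ℕ}

theorem rt_mulVec {i j : Fin (m + 1)} (hij : i ≠ j) (s : k) (v : Fin (m + 1) → k) :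
    (rt hij s).1 *ᵥ v = v + (s * v j) • ee i := by
  change (1 + Matrix.single i j s) *ᵥ v = _
  rw [add_mulVec, one_mulVec]
  congr 1
  funext p
  by_cases hp : p = i
  · subst hp
    simp [ee, Matrix.single_mulVec]
  · simp [ee, Matrix.single_mulVec, hp, Function.update_of_ne hp]

theorem rt_smul {i j : Fin (m + 1)} (hij : i ≠ j) (s : k) {v : Fin (m + 1) → k} (hv : v ≠ 0) :
    rt hij s • (pt v : YY k m) = pt (v + (s * v j) • ee i) := by
  rw [sl_smul_pt _ hv, rt_mulVec]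

theorem rt_fix {i j : Fin (m + 1)} (hij : i ≠ j) (s : k) {v : Fin (m + 1) → k} (hv : v ≠ 0)
    (h : v j = 0) : rt hij s • (pt v : YY k m) = pt v := by
  rw [rt_smul hij s hv, h, mul_zero, zero_smul, add_zero]

theorem rt_smul_e {i j : Fin (m + 1)} (hij : i ≠ j) (s : k) :
    rt hij s • (pt (ee j) : YY k m) = pt (ee j + s • ee i) := by
  rw [rt_smul hij s (ee_ne j)]
  simp [ee]

theorem rt_smul_u {i j : Fin (m + 1)} (hij : i ≠ j) (s : k) :
    rt hij s • (pt (fun _ => 1) : YY k m) = pt ((fun _ => 1) + s • ee i) := by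
  rw [rt_smul hij s one_ne, mul_one]

end rts

section leg

variable {k : Type} [NontriviallyNormedField k] [ProperSpace k] {m : ℕ} {Γ K : Type} [Group Γ]
  [NormedAddCommGroup K] [InnerProductSpace ℂ K] [CompleteSpace K] {G' : Type} [Group G']

/-- translation of functions by an element of `PGL` -/
noncomputable def actG (x : PG k (m + 1)) (f : C(YY k m, ℂ)) : C(YY k m, ℂ) := f.comp (cg x⁻¹)

/-- collineations which fix the line through `e_i, e_j` pointwise -/
def FixL (i j : Fin (m + 1)) (x : PG k (m + 1)) : Prop :=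
  ∀ α β : k, (α • ee j + β • ee i : Fin (m + 1) → k) ≠ 0 →
    x • (pt (α • ee j + β • ee i) : YY k m) = pt (α • ee j + β • ee i)

/-- the input of [N-CLS]: a leg in which the calculi `E a` of all points `a` and `F b` of all
hyperplanes `b` (given by coordinates) commute. `G'` is the source group, it acts through `a` on
the points and through `a'` on the hyperplanes. -/
structure Lg (a a' : G' →* PG k (m + 1)) (π : G' →* (K →L[ℂ] K))
    (lam : Γ →* (K →L[ℂ] K)) (W : Set (K →L[ℂ] K)) (q : Γ →* PG k (m + 1))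
    (E F : YY k m → (C(YY k m, ℂ) →⋆ₐ[ℂ] (K →L[ℂ] K))) : Prop where
  ort : ∀ (e : G') (x l : YY k m), Projectivization.orthogonal (a e • x) (a' e • l) ↔
    Projectivization.orthogonal x l
  cEE : ∀ a b f g, Commute (E a f) (E b g)
  cEF : ∀ a b f g, Commute (E a f) (F b g)
  cFF : ∀ a b f g, Commute (F a f) (F b g)
  /-- incident pairs: exact support -/
  inc : ∀ a b, Projectivization.orthogonal a b → ∀ u v : C(YY k m, ℂ),
    (∀ x ∈ tsupport u, ∀ y ∈ tsupport v, ¬ Projectivization.orthogonal x y) → E a u * F b v = 0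
  /-- non-incident pairs are nowhere incident -/
  ninc : ∀ a b, ¬ Projectivization.orthogonal a b → ∀ ξ, (∀ u v : C(YY k m, ℂ),
    (∀ x ∈ tsupport u, ∀ y ∈ tsupport v, ¬ Projectivization.orthogonal x y) →
      E a u (F b v ξ) = 0) → ξ = 0
  pE : ∀ e x f, π e * E x f * π e⁻¹ = E (a e • x) f
  pF : ∀ e x f, π e * F x f * π e⁻¹ = F (a' e • x) f
  lE : ∀ γ a f, lam γ * E a f * lam γ⁻¹ = E a (actG (q γ) f)
  lF : ∀ γ, ∃ c : C(YY k m, YY k m), ∀ b f, lam γ * F b f * lam γ⁻¹ = F b (f.comp c)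
  cmE : ∀ a f, RC.Cm W (E a f)
  cmF : ∀ b f, RC.Cm W (F b f)
  /-- the zero-one law for the pointwise stabiliser of a line -/
  zo : ∀ i j, i ≠ j → ∀ (M : Submodule ℂ K), IsClosed (M : Set K) →
    (∀ w ∈ W, ∀ ζ ∈ M, w ζ ∈ M) → (∀ γ, ∀ ζ ∈ M, lam γ ζ ∈ M) →
    (∀ e, FixL i j (a e) → ∀ ζ ∈ M, π e ζ ∈ M) → M = ⊥ ∨ M = ⊤

variable {a a' : G' →* PG k (m + 1)} {π : G' →* (K →L[ℂ] K)}
  {lam : Γ →* (K →L[ℂ] K)} {W : Set (K →L[ℂ] K)} {q : Γ →* PG k (m + 1)}
  {E F : YY k m → (C(YY k m, ℂ) →⋆ₐ[ℂ] (K →L[ℂ] K))}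

/-- the joint calculus of all points and hyperplanes -/
theorem exists_phi (h : Lg a a' π lam W q E F) : ∃ Φ : C(XX k m, ℂ) →⋆ₐ[ℂ] (K →L[ℂ] K),
    (∀ a f, Φ (co (.inl a) f) = E a f) ∧ ∀ b f, Φ (co (.inr b) f) = F b f := by
  obtain ⟨Φ, hΦ⟩ := exists_joint (ι := YY k m ⊕ YY k m) (fun s => Sum.elim E F s) (by
    intro s t f g
    rcases s with a | a <;> rcases t with b | b
    · exact h.cEE a b f g
    · exact h.cEF a b f g
    · exact (h.cEF b a g f).symm
    · exact h.cFF a b f g)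
  exact ⟨Φ, fun a f => hΦ (.inl a) f, fun b f => hΦ (.inr b) f⟩

variable {Φ : C(XX k m, ℂ) →⋆ₐ[ℂ] (K →L[ℂ] K)} (hL : Lg a a' π lam W q E F)
  (hE : ∀ a f, Φ (co (.inl a) f) = E a f) (hF : ∀ b f, Φ (co (.inr b) f) = F b f)

include hL hE hF

theorem zs_PI {z : XX k m} (hz : z ∈ Zs Φ) : PI z := by
  intro a b hab
  refine zs_rel (Φ := Φ) (i := .inl a) (j := .inr b) (I := incN k m) incN_closed ?_ hz
  intro u v huv
  rw [hE, hF]
  exact hL.inc a b hab u v huv

theorem full_ninc {a b : YY k m} (hab : ¬ Projectivization.orthogonal a b) :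
    Nn Φ {z | ¬ Projectivization.orthogonal (z (.inl a)) (z (.inr b))} = ⊥ := by
  refine full_rel (Φ := Φ) (i := .inl a) (j := .inr b) (I := incN k m) ?_
  intro ξ hξ
  refine hL.ninc a b hab ξ fun u v huv => ?_
  have := hξ u v huv
  rwa [hE, hF] at this

/-- the frame is in general position -/
theorem full_Og : Nn Φ (Og k m) = ⊥ := by
  classical
  have h1 : ∀ p ∈ (Finset.univ.filter fun p : Fin (m + 2) × Fin (m + 2) => p.1 ≠ p.2),
      Nn Φ {z | ¬ Projectivization.orthogonal (z (.inl (src k m p.2)))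
        (z (.inr (hyp k p.1 p.2)))} = ⊥ := by
    intro p hp
    exact full_ninc hL hE hF (src_not_hyp k (Finset.mem_filter.1 hp).2)
  refine full_mono (full_iInter _ h1) fun z hz hzO => ?_
  have hI := zs_PI hL hE hF hz
  refine gpos_of_sep (z := fr z) (fun i b => z (.inr (hyp k i b))) ?_ ?_
  · intro i b l hib hli hlb
    exact hI _ _ (src_hyp k hib hli hlb)
  · intro i b hib
    simp only [Set.mem_iInter] at hzO
    exact hzO (i, b) (Finset.mem_filter.2 ⟨Finset.mem_univ _, hib⟩)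

/-- `π e` permutes the coordinates -/
theorem phi_pi (e : G') (G : C(XX k m, ℂ)) :
    π e * Φ G * π e⁻¹ = Φ (G.comp (bt (a e) (a' e))) := by
  refine conj_eq Φ Φ (bt (a e) (a' e)) (by rw [← map_mul, mul_inv_cancel, map_one])
    (by rw [← map_mul, inv_mul_cancel, map_one]) ?_ G
  intro s f
  rcases s with x | b
  · rw [hE, hL.pE, ← hE]
    rfl
  · rw [hF, hL.pF, ← hF]
    rfl

theorem phi_pi' (e : G') (G : C(XX k m, ℂ)) :
    Φ G * π e = π e * Φ (G.comp (bt (a e)⁻¹ (a' e)⁻¹)) := by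
  have h1 := phi_pi hL hE hF e⁻¹ G
  rw [map_inv a, map_inv a', inv_inv] at h1
  rw [← h1]
  have h2 : π e * π e⁻¹ = 1 := by rw [← map_mul, mul_inv_cancel, map_one]
  calc Φ G * π e = (π e * π e⁻¹) * Φ G * π e := by rw [h2, one_mul]
    _ = _ := by simp only [mul_assoc]

theorem phi_lam (γ : Γ) : ∃ c' : C(YY k m, YY k m), ∀ G,
    lam γ * Φ G * lam γ⁻¹ = Φ (G.comp (dl (cg (q γ)⁻¹) c')) := by
  obtain ⟨c', hc'⟩ := hL.lF γ
  refine ⟨c', fun G => ?_⟩
  refine conj_eq Φ Φ (dl (cg (q γ)⁻¹) c') (by rw [← map_mul, mul_inv_cancel, map_one])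
    (by rw [← map_mul, inv_mul_cancel, map_one]) ?_ G
  intro s f
  rcases s with a | b
  · rw [hE, hL.lE, ← hE]
    rfl
  · rw [hF, hc', ← hF]
    rfl

theorem phi_lam' (γ : Γ) : ∃ c' : C(YY k m, YY k m), ∀ G,
    Φ G * lam γ = lam γ * Φ (G.comp (dl (cg (q γ)) c')) := by
  obtain ⟨c', hc'⟩ := phi_lam hL hE hF γ⁻¹
  refine ⟨c', fun G => ?_⟩
  have h1 := hc' G
  rw [inv_inv, map_inv q, inv_inv] at h1
  rw [← h1]
  have h2 : lam γ * lam γ⁻¹ = 1 := by rw [← map_mul, mul_inv_cancel, map_one]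
  calc Φ G * lam γ = (lam γ * lam γ⁻¹) * Φ G * lam γ := by rw [h2, one_mul]
    _ = _ := by simp only [mul_assoc]

theorem phi_cm {w : K →L[ℂ] K} (hw : w ∈ W) (G : C(XX k m, ℂ)) : Commute w (Φ G) := by
  refine comm_all Φ (fun s f => ?_) G
  rcases s with a | b
  · rw [hE]
    exact (hL.cmE a f w hw).symm
  · rw [hF]
    exact (hL.cmF b f w hw).symm

theorem bt_zs (e : G') {z : XX k m} (hz : z ∈ Zs Φ) : bt (a e) (a' e) z ∈ Zs Φ := by
  have h1 := zs_map (Φ := Φ) (U := π e⁻¹) (V := π e) (α := bt (a e) (a' e))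
    (by rw [← map_mul, mul_inv_cancel, map_one]) (fun G => by
      have := phi_pi' hL hE hF e⁻¹ G
      rwa [map_inv a, map_inv a', inv_inv, inv_inv] at this) hz
  exact h1

/-- the translates of the frame are in general position -/
theorem full_bt (e : G') : Nn Φ {z | bt (a e) (a' e) z ∈ Og k m} = ⊥ := by
  rw [eq_bot_iff]
  intro ξ hξ
  have h1 : π e⁻¹ ξ ∈ Nn Φ (Og k m) := nn_map (Φ := Φ) (U := π e⁻¹) (V := π e)
    (α := bt (a e) (a' e))
    (by rw [← map_mul, mul_inv_cancel, map_one]) (fun G => by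
      have := phi_pi' hL hE hF e⁻¹ G
      rwa [map_inv a, map_inv a', inv_inv, inv_inv] at this) (fun z _ hz => hz) hξ
  rw [full_Og hL hE hF] at h1
  have h2 : π e⁻¹ ξ = 0 := (Submodule.mem_bot ℂ).1 h1
  have h3 : π e (π e⁻¹ ξ) = ξ := by
    have : π e * π e⁻¹ = 1 := by rw [← map_mul, mul_inv_cancel, map_one]
    exact congrArg (fun T : K →L[ℂ] K => T ξ) this
  rw [h2, map_zero] at h3
  exact (Submodule.mem_bot ℂ).2 h3.symm

end leg

section zeroone

variable {k : Type} [NontriviallyNormedField k] [ProperSpace k] {m : ℕ} {Γ K : Type} [Group Γ]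
  [NormedAddCommGroup K] [InnerProductSpace ℂ K] [CompleteSpace K] {G' : Type} [Group G']

/-- the position of the point `b` relative to the frame -/
noncomputable def ww (b : YY k m) (z : XX k m) : YY k m := (xg z)⁻¹ • z (.inl b)

omit [ProperSpace k] in
theorem ww_cont (b : YY k m) : ContinuousOn (ww b) (Og k m) := by
  have h1 : ContinuousOn (fun z : XX k m => ((xg z)⁻¹, z (.inl b))) (Og k m) :=
    xg_contOn.inv.prodMk (continuous_apply _).continuousOn
  have h2 : Continuous fun p : PG k (m + 1) × YY k m => p.1 • p.2 := continuous_smul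
  exact h2.comp_continuousOn h1

omit [ProperSpace k] in
theorem ww_dl (b : YY k m) (x : PG k (m + 1)) (c' : C(YY k m, YY k m)) {z : XX k m}
    (hz : z ∈ Og k m) : ww b (dl (cg x) c' z) = ww b z := by
  rw [ww, ww, xg_dl x c' hz]
  change (x * xg z)⁻¹ • (x • z (.inl b)) = _
  rw [_root_.mul_inv_rev, mul_smul, inv_smul_smul]

omit [ProperSpace k] in
theorem fixL_ei {i j : Fin (m + 1)} {x : PG k (m + 1)} (h : FixL i j x) :
    x • (pt (ee i) : YY k m) = pt (ee i) := by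
  have h1 := h 0 1 (by rw [zero_smul, zero_add, one_smul]; exact ee_ne i)
  rwa [zero_smul, zero_add, one_smul] at h1

omit [ProperSpace k] in
theorem fixL_ej {i j : Fin (m + 1)} {x : PG k (m + 1)} (h : FixL i j x) :
    x • (pt (ee j) : YY k m) = pt (ee j) := by
  have h1 := h 1 0 (by rw [zero_smul, add_zero, one_smul]; exact ee_ne j)
  rwa [zero_smul, add_zero, one_smul] at h1

omit [ProperSpace k] in
theorem fixL_b {i j : Fin (m + 1)} (hij : i ≠ j) {x : PG k (m + 1)} (h : FixL i j x) (t : k) :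
    x • (pt (ee j + t • ee i) : YY k m) = pt (ee j + t • ee i) := by
  have h1 := h 1 t (by rw [one_smul]; exact ln_ne hij t)
  rwa [one_smul] at h1

omit [ProperSpace k] in
/-- elements which fix the line through `e_i, e_j` pointwise do not move the position -/
theorem ww_bt {i j : Fin (m + 1)} (hij : i ≠ j) (t : k) {x y : PG k (m + 1)} (hx : FixL i j x)
    (hxy : ∀ p l : YY k m, Projectivization.orthogonal (x • p) (y • l) ↔ Projectivization.orthogonal p l)
    {z : XX k m} (hI : PI z) (hz : z ∈ Og k m) (hz' : bt x y z ∈ Og k m) :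
    ww (pt (ee j + t • ee i)) (bt x y z) = ww (pt (ee j + t • ee i)) z := by
  have f1 := fx_of hI hz
  have f2 := fx_of (PI_bt hI hxy) hz'
  -- the comparison of the two frames
  have key : ∀ p : YY k m, x • p = p →
      ((xg z)⁻¹ * xg (bt x y z)) • ((xg (bt x y z))⁻¹ • bt x y z (.inl p)) =
        (xg z)⁻¹ • z (.inl p) := by
    intro p hp
    rw [mul_smul, smul_inv_smul, bt_inl, hp]
  have ei : ((xg z)⁻¹ * xg (bt x y z)) • (pt (ee i) : YY k m) = pt (ee i) := by
    have h1 := key (pt (ee i)) (fixL_ei hx)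
    rw [f2.fix_e, f1.fix_e] at h1
    exact h1
  have ej : ((xg z)⁻¹ * xg (bt x y z)) • (pt (ee j) : YY k m) = pt (ee j) := by
    have h1 := key (pt (ee j)) (fixL_ej hx)
    rw [f2.fix_e, f1.fix_e] at h1
    exact h1
  have es : ((xg z)⁻¹ * xg (bt x y z)) • (pt (ee i + ee j) : YY k m) = pt (ee i + ee j) := by
    have e : (ee i + ee j : Fin (m + 1) → k) = (1 : k) • ee j + (1 : k) • ee i := by
      rw [one_smul, one_smul]
      exact add_comm _ _
    have h0 : x • (pt (ee i + ee j) : YY k m) = pt (ee i + ee j) := by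
      rw [e]
      exact hx 1 1 (by rw [← e]; exact add_ne hij)
    have h1 := key (pt (ee i + ee j)) h0
    rw [f2.A_add hij, f1.A_add hij] at h1
    exact h1
  have h1 := key (pt (ee j + t • ee i)) (fixL_b hij hx t)
  obtain ⟨α, β, hne, hαβ⟩ := f2.A_line hij t
  rw [hαβ, fix_line _ hij ei ej es hne] at h1
  rw [ww, ww]
  exact hαβ.trans h1

variable {a a' : G' →* PG k (m + 1)} {π : G' →* (K →L[ℂ] K)}
  {lam : Γ →* (K →L[ℂ] K)} {W : Set (K →L[ℂ] K)} {q : Γ →* PG k (m + 1)}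
  {E F : YY k m → (C(YY k m, ℂ) →⋆ₐ[ℂ] (K →L[ℂ] K))}
  {Φ : C(XX k m, ℂ) →⋆ₐ[ℂ] (K →L[ℂ] K)} (hL : Lg a a' π lam W q E F)
  (hE : ∀ a f, Φ (co (.inl a) f) = E a f) (hF : ∀ b f, Φ (co (.inr b) f) = F b f)

include hL hE hF

theorem dich {i j : Fin (m + 1)} (hij : i ≠ j) (t : k)
    (U : Set (YY k m)) : Nn Φ (Og k m ∩ ww (pt (ee j + t • ee i)) ⁻¹' U) = ⊥ ∨
      Nn Φ (Og k m ∩ ww (pt (ee j + t • ee i)) ⁻¹' U) = ⊤ := by
  refine hL.zo i j hij _ (Nn_closed _) ?_ ?_ ?_
  · intro w hw ζ hζ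
    exact nn_comm (phi_cm hL hE hF hw) hζ
  · intro γ ζ hζ
    obtain ⟨c', hc'⟩ := phi_lam' hL hE hF γ
    refine nn_map (Φ := Φ) (U := lam γ) (V := lam γ⁻¹) (α := dl (cg (q γ)) c')
      (by rw [← map_mul, inv_mul_cancel, map_one]) hc' ?_ hζ
    rintro z _ ⟨h1, h2⟩
    have h3 := (dl_mem_Og_iff (q γ) c').1 h1
    refine ⟨h3, ?_⟩
    rw [mem_preimage, ww_dl _ _ _ h3] at h2
    exact h2
  · intro e he ζ hζ
    have h1 := nn_map (Φ := Φ) (U := π e) (V := π e⁻¹)
      (α := bt (a e)⁻¹ (a' e)⁻¹) (by rw [← map_mul, inv_mul_cancel, map_one])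
      (phi_pi' hL hE hF _) (O' := (Og k m ∩ ww (pt (ee j + t • ee i)) ⁻¹' U) ∩
        {z | bt (a e) (a' e) z ∈ Og k m}) ?_ hζ
    · rwa [nn_inter (full_bt hL hE hF _)] at h1
    · rintro z hz ⟨⟨h1, h2⟩, h3⟩
      change bt (a e) (a' e) (bt (a e)⁻¹ (a' e)⁻¹ z) ∈ Og k m at h3
      have hz1 : bt (a e)⁻¹ (a' e)⁻¹ z ∈ Zs Φ := by
        have := bt_zs hL hE hF e⁻¹ hz
        rwa [map_inv a, map_inv a'] at this
      have h4 := ww_bt hij t he (hL.ort e) (zs_PI hL hE hF hz1) h1 h3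
      rw [bt_bt_inv] at h3 h4
      refine ⟨h3, ?_⟩
      rw [mem_preimage, h4]
      exact h2

/-- **the zero-one law**: the position of `e_j + t e_i` relative to the frame is constant -/
theorem exists_sigma [Nontrivial K] {i j : Fin (m + 1)} (hij : i ≠ j) (t : k) :
    ∃ s : k, ∀ z ∈ Zs Φ, z ∈ Og k m →
      (xg z)⁻¹ • z (.inl (pt (ee j + t • ee i))) = pt (ee j + s • ee i) := by
  have hc : ∀ z ∈ Zs Φ, z ∈ Og k m → ∀ z' ∈ Zs Φ, z' ∈ Og k m →
      ww (pt (ee j + t • ee i)) z = ww (pt (ee j + t • ee i)) z' := by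
    intro z hz hzO z' hz' hzO'
    exact const_of_dich (Φ := Φ) Og_open (ww_cont _)
      (fun U _ => dich hL hE hF hij t U) hz hzO hz' hzO'
  -- a point where the position is not `e_i`
  have hno : ¬ Projectivization.orthogonal (pt (ee j + t • ee i) : YY k m) (pt (ee j)) := by
    rw [orth_pt (ln_ne hij t) (ee_ne j)]
    simp [ee, hij, hij.symm, add_dotProduct]
  obtain ⟨z₁, hz₁, hz₁O, hz₁N⟩ := full_nonempty (full_inter (full_Og hL hE hF)
    (full_ninc hL hE hF hno))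
  have f1 := fx_of (zs_PI hL hE hF hz₁) hz₁O
  obtain ⟨α, β, hne, hαβ⟩ := f1.A_line hij t
  have hα : α ≠ 0 := by
    intro h0
    refine hz₁N ?_
    rw [← orth_pg (xg z₁)⁻¹, map_inv]
    have e1 : (tpg (xg z₁))⁻¹ • z₁ (.inr (pt (ee j))) = pt (ee j) := f1.B_e j
    have e2 : (xg z₁)⁻¹ • z₁ (.inl (pt (ee j + t • ee i))) = pt (α • ee j + β • ee i) := hαβ
    rw [e1, e2, orth_pt hne (ee_ne j), h0]
    simp [ee, hij, hij.symm, add_dotProduct]
  refine ⟨β / α, fun z hz hzO => ?_⟩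
  have h1 := hc z hz hzO z₁ hz₁ hz₁O
  rw [ww, ww] at h1
  rw [h1]
  refine hαβ.trans (pt_eq_of hne (c := α) ?_)
  rw [smul_add, smul_smul, mul_div_cancel₀ _ hα]

end zeroone

end Vale.Agent.P092.H121
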