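import Vale.Agent.P092.H121.Cls
import Vale.Agent.P092.SN.Blocks2
import Vale.Agent.P092.H455.Hm2

/-!
P092, TEAM N, block [N-CLS] (helper121), in the letters of SN/Blocks2: `clsStmt : SN.ClsStmt k μ`.
-/

set_option linter.all false

open scoped LinearAlgebra.Projectivization ZeroAtInfty InnerProductSpace
open Matrix Topology Filter TopologicalSpace Set MeasureTheory

namespace Vale.Agent.P092.H121

open Vale.Agent.P092.H820 (pj)
open Vale.Agent.P092.RC (Cm Moore GG PG YY ct)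
open Vale.Agent.P092.H171 (co)
open Vale.Agent.P092.H35 (sp)
open Vale.Agent.P092.H35.Sig (sgm)
open Vale.Agent.P092.H933 (LocK)
open Vale.Agent.P092.H455 (moore_root)
open Vale.Agent.P092.H100.Gr (Gr)
open Vale.Agent.P092.H644.Gr3 (p1 hyp p1H hypH p1_le_hyp)
open Vale.Agent.P092.SN (Adm LegN CalN PH CY CG fp fh)
open Vale.Agent.P092.H218.NC (In)
open Vale.Agent.P092.H232 (Nin)

section moore

variable {k : Type} [NontriviallyNormedField k] {N : ℕ}

/-- every collineation agrees on the line `e_i, e_j` with an element of `SL_n(k)` -/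
theorem exists_sl {i j l : Fin (N + 1)} (hli : l ≠ i) (hlj : l ≠ j) (x : PG k (N + 1)) :
    ∃ g : GG k N, FixL i j ((sp k (N + 1) g)⁻¹ * x) := by
  obtain ⟨h, rfl⟩ := QuotientGroup.mk_surjective x
  have hd : h.1.det ≠ 0 := by
    intro h0
    have h1 : h.1.det * (h⁻¹).1.det = 1 := by
      rw [← det_mul, ← Units.val_mul, mul_inv_cancel, Units.val_one, det_one]
    rw [h0, zero_mul] at h1
    exact zero_ne_one h1
  let d : Fin (N + 1) → k := Function.update (fun _ => 1) l h.1.det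
  have hdd : (diagonal d).det = h.1.det := by
    rw [det_diagonal, Finset.prod_update_of_mem (Finset.mem_univ l)]
    simp
  let D : GL (Fin (N + 1)) k := Matrix.GeneralLinearGroup.mkOfDetNeZero (diagonal d)
    (by rw [hdd]; exact hd)
  have hD : D.1 = diagonal d := rfl
  have hg : (h * D⁻¹).1.det = 1 := by
    have h1 : (h * D⁻¹).1.det * D.1.det = h.1.det := by
      rw [← det_mul, ← Units.val_mul, inv_mul_cancel_right]
    rw [hD, hdd] at h1
    exact mul_right_cancel₀ hd (h1.trans (one_mul _).symm)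
  refine ⟨⟨(h * D⁻¹).1, hg⟩, ?_⟩
  have e : (sp k (N + 1) ⟨(h * D⁻¹).1, hg⟩)⁻¹ * (QuotientGroup.mk h : PG k (N + 1)) =
      QuotientGroup.mk D := by
    have e1 : sp k (N + 1) ⟨(h * D⁻¹).1, hg⟩ = (QuotientGroup.mk (h * D⁻¹) : PG k (N + 1)) := by
      change (QuotientGroup.mk (Matrix.SpecialLinearGroup.toGL ⟨(h * D⁻¹).1, hg⟩) :
        PG k (N + 1)) = _
      congr 1
      apply Units.ext
      rfl
    rw [e1, ← QuotientGroup.mk_inv, ← QuotientGroup.mk_mul]
    congr 1
    group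
  rw [e]
  intro α β hv
  rw [mk_smul_pt D hv, hD]
  congr 1
  funext p
  rw [mulVec_diagonal]
  by_cases hp : p = l
  · subst hp
    simp [ee, Pi.single_eq_of_ne hli, Pi.single_eq_of_ne hlj]
  · simp only [d]
    rw [Function.update_of_ne hp, one_mul]

variable [ProperSpace k] {E : Type} [Group E] [TopologicalSpace E] {ι : GG k N →* E}
  {a a' : E →* PG k (N + 1)}

/-- **the pointwise stabiliser of a line is a Moore set** -/
theorem moore_line (hk : LocK k) (h : Adm ι a a') {i j : Fin (N + 1)} (hij : i ≠ j) :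
    Moore {e : E | FixL i j (a e)} := by
  have hN := h.hN
  obtain ⟨l, hli, hlj⟩ : ∃ l : Fin (N + 1), l ≠ i ∧ l ≠ j := by
    by_contra hcon
    push Not at hcon
    have h1 : (Finset.univ : Finset (Fin (N + 1))) ⊆ {i, j} := fun x _ => by
      by_cases hx : x = i
      · simp [hx]
      · simp [hcon x hx]
    have h2 := Finset.card_le_card h1
    rw [Finset.card_univ, Fintype.card_fin] at h2
    exact absurd (h2.trans (Finset.card_le_two)) (by omega)
  have hai : ∀ (g : GG k N) (x : YY k N), a (ι g) • x = sp k (N + 1) g • x := fun g x => h.comp g x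
  intro 𝓗 _ _ _ u h1 h2 ξ hξ
  have h3 := moore_root hk (n := N + 1) (by omega) hli.symm 𝓗 (u.comp ι)
    (fun g η => h1 _ η) (fun η => (h2 η).comp h.cι) ξ (by
      rintro g ⟨t, ht⟩
      have hg : g = rt hli.symm t := Subtype.ext ht
      refine hξ (ι g) fun α β hv => ?_
      rw [h.comp, hg]
      refine rt_fix hli.symm t hv ?_
      simp [ee, Pi.single_eq_of_ne hli, Pi.single_eq_of_ne hlj])
  intro e
  obtain ⟨g, hg⟩ := exists_sl hli hlj (a e)
  have h4 : u (ι g⁻¹ * e) ξ = ξ := by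
    refine hξ _ fun α β hv => ?_
    rw [map_mul, mul_smul, hai, map_inv, ← mul_smul]
    exact hg α β hv
  have h5 : u (ι g) ξ = ξ := h3 g
  have h6 : ι g * (ι g⁻¹ * e) = e := by rw [map_inv]; group
  calc u e ξ = u (ι g * (ι g⁻¹ * e)) ξ := by rw [h6]
    _ = u (ι g) (u (ι g⁻¹ * e) ξ) := by rw [map_mul]; rfl
    _ = ξ := by rw [h4, h5]

end moore

section glue

variable {k : Type} [NontriviallyNormedField k] [ProperSpace k] {N : ℕ}

/-- functions of points as functions of `1`-spaces -/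
noncomputable def up (f : CY k N) : CG k N 1 := f.comp ⟨p1H.symm, p1H.symm.continuous⟩

/-- functions of hyperplanes as functions of `N`-spaces -/
noncomputable def uh (f : CY k N) : CG k N N := f.comp ⟨hypH.symm, hypH.symm.continuous⟩

theorem fp_up (f : CY k N) : fp (up f) = f := by
  ext x
  change f (p1H.symm (p1H x)) = f x
  rw [Homeomorph.symm_apply_apply]

theorem fh_uh (f : CY k N) : fh (uh f) = f := by
  ext x
  change f (hypH.symm (hypH x)) = f x
  rw [Homeomorph.symm_apply_apply]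

theorem nin_up {u v : CY k N} (h : ∀ x ∈ tsupport u, ∀ y ∈ tsupport v,
    ¬ Projectivization.orthogonal x y) : Nin In (up u) (uh v) := by
  intro X hX Y hY hXY
  have h1 : p1H.symm X ∈ tsupport u := by
    have e : (up u : Gr k (Fin (N + 1)) 1 → ℂ) = u ∘ p1H.symm := rfl
    rw [e, tsupport_comp_eq_preimage] at hX
    exact hX
  have h2 : hypH.symm Y ∈ tsupport v := by
    have e : (uh v : Gr k (Fin (N + 1)) N → ℂ) = v ∘ hypH.symm := rfl
    rw [e, tsupport_comp_eq_preimage] at hY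
    exact hY
  refine h _ h1 _ h2 ?_
  rw [← p1_le_hyp]
  have e1 : p1 (p1H.symm X) = X := p1H.apply_symm_apply X
  have e2 : hyp (hypH.symm Y) = Y := hypH.apply_symm_apply Y
  rw [e1, e2]
  exact hXY

theorem nin_fp {u : CG k N 1} {v : CG k N N} (h : Nin In u v) :
    ∀ x ∈ tsupport (fp u), ∀ y ∈ tsupport (fh v), ¬ Projectivization.orthogonal x y := by
  intro x hx y hy hxy
  have h1 : p1H x ∈ tsupport u := by
    have e : (fp u : YY k N → ℂ) = u ∘ p1H := rfl
    rw [e, tsupport_comp_eq_preimage] at hx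
    exact hx
  have h2 : hypH y ∈ tsupport v := by
    have e : (fh v : YY k N → ℂ) = v ∘ hypH := rfl
    rw [e, tsupport_comp_eq_preimage] at hy
    exact hy
  exact h _ h1 _ h2 (p1_le_hyp.2 hxy)

variable {E Γ K : Type} [Group E] [TopologicalSpace E] [Group Γ] [NormedAddCommGroup K]
  [InnerProductSpace ℂ K] [CompleteSpace K] [MeasurableSpace k] {μ : Measure k} {w : kˣ}
  {ι : GG k N →* E} {a a' : E →* PG k (N + 1)} {π : E →* (K →L[ℂ] K)} {lam : Γ →* (K →L[ℂ] K)}
  {W : Set (K →L[ℂ] K)} {Ω : K} {m : Set Γ → (K →L[ℂ] K)} {q : Γ → GG k N} {Z : ℝ → Set Γ}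
  {Ec F : YY k N → (CY k N →⋆ₐ[ℂ] (K →L[ℂ] K))}
  {G : ∀ j, Gr k (Fin (N + 1)) j → (CG k N j →⋆ₐ[ℂ] (K →L[ℂ] K))}

omit [ProperSpace k] in
/-- the target homomorphism to `PGL` -/
noncomputable def qp (hq : PH q) : Γ →* PG k (N + 1) :=
  MonoidHom.mk' (fun γ => sp k (N + 1) (q γ)) fun γ γ' => by
    obtain ⟨c, hc⟩ := hq γ γ'
    rw [← map_mul]
    exact (H35.mkP_eq_iff.2 ⟨c, hc⟩).symm

theorem lg_of (hk : LocK k) (hL : LegN μ w ι a a' π lam W Ω m q Z Ec F)
    (hC : CalN ι π lam W q Ec F G) (hK : H218.NC.Key₁ G) :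
    Lg a a' π lam W (qp hL.ph) Ec F := by
  have hN : 2 ≤ N := hL.adm.hN
  have eE : ∀ c f, Ec c f = G 1 (p1 c) (up f) := fun c f => by rw [hC.pnt, fp_up]
  have eF : ∀ c f, F c f = G N (hyp c) (uh f) := fun c f => by rw [hC.top, fh_uh]
  have hac := H218.NC.all_comm hN hC.cal hK
  refine ⟨?_, ?_, ?_, ?_, ?_, ?_, ?_, ?_, ?_, ?_, ?_, ?_, ?_⟩
  · exact fun e x l => hL.adm.ort e x l
  · intro x y f g
    rw [eE, eE]
    exact hac 1 1 le_rfl (by omega) le_rfl (by omega) _ _ _ _
  · intro x y f g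
    rw [eE, eF]
    exact hac 1 N le_rfl (by omega) (by omega) le_rfl _ _ _ _
  · intro x y f g
    rw [eF, eF]
    exact hac N N (by omega) le_rfl (by omega) le_rfl _ _ _ _
  · intro x y hxy u v huv
    rw [eE, eF]
    exact hC.cal.inc 1 N le_rfl (by omega) le_rfl _ _ (p1_le_hyp.2 hxy) _ _ (nin_up huv)
  · intro x y hxy ξ hξ
    refine H218.NC.ninc hN hC.cal hK 1 N le_rfl (by omega) (by omega) le_rfl (p1 x) (hyp y)
      (fun h => hxy (p1_le_hyp.1 h)) ξ fun u v huv => ?_
    rw [hC.pnt, hC.top]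
    exact hξ _ _ (nin_fp huv)
  · exact fun e x f => hL.e.pcov e x f
  · exact fun e x f => hL.f.pcov e x f
  · intro γ x f
    rw [hL.e.cov]
    congr 1
  · intro γ
    exact ⟨⟨fun x => (ct (q γ))⁻¹ • x, continuous_const_smul _⟩, fun b f => hL.f.cov γ b f⟩
  · exact fun x f => hL.e.cm x f
  · exact fun x f => hL.f.cm x f
  · intro i j hij M hM hMW hML hMp
    refine H411.zero_one_sub hL.pic (moore_line hk hL.adm hij) hM hMW hML ?_
    intro e he ζ hζ
    refine ⟨hMp e he ζ hζ, hMp e⁻¹ ?_ ζ hζ⟩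
    intro α β hv
    have h1 := he α β hv
    rw [map_inv, inv_smul_eq_iff]
    exact h1.symm

/-- **[N-CLS]**, in the letters of SN/Blocks2 -/
theorem clsStmt (hk : LocK k) (μ : Measure k) : SN.ClsStmt k μ := by
  intro N E Γ K _ _ _ _ _ _ w ι a a' π lam W Ω m q Z Ec F G hL hC hK
  haveI : Nontrivial K := ⟨Ω, 0, fun h => by
    have := hL.pic.nΩ
    rw [h, norm_zero] at this
    exact zero_ne_one this⟩
  have hg := lg_of hk hL hC hK
  obtain ⟨Φ, hE, hF⟩ := exists_phi hg
  obtain ⟨σ, h⟩ := clsO_of hg hE hF hL.adm.hN (ι := ι) hL.adm.comp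
  exact ⟨σ, QN Φ, ⟨h.nd, h.cm, h.cov, h.pcov, h.mulE⟩⟩

end glue

end Vale.Agent.P092.H121
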