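import Vale.Agent.P092.H789.Fr
import Vale.Agent.P092.H899.Simple

/-!
P092, TEAM N, block [N-CLS] (helper121): linear algebra. A morphism `(A, B)` of the incidence of points
and hyperplanes which fixes the frame `e_0, .., e_m, e_0 + .. + e_m` is determined by few values.
-/

set_option linter.all false

open scoped LinearAlgebra.Projectivization
open Matrix Topology Filter TopologicalSpace

namespace Vale.Agent.P092.H121

open Vale.Agent.P092.H820
open Vale.Agent.P092.H789

section pts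

variable {k : Type} [NontriviallyNormedField k] {m : ℕ}

theorem one_ne : (fun _ => (1 : k) : Fin (m + 1) → k) ≠ 0 := by
  intro h
  have := congrFun h 0
  simp at this

open Classical in
/-- the point `[v]` -/
noncomputable def pt (v : Fin (m + 1) → k) : YY k m :=
  if h : v ≠ 0 then pj k (Fin (m + 1)) ⟨v, h⟩ else pj k (Fin (m + 1)) ⟨fun _ => 1, one_ne⟩

theorem pt_of {v : Fin (m + 1) → k} (h : v ≠ 0) : pt v = pj k (Fin (m + 1)) ⟨v, h⟩ := dif_pos h

theorem exists_pt (a : YY k m) : ∃ v : Fin (m + 1) → k, v ≠ 0 ∧ a = pt v := by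
  obtain ⟨v, rfl⟩ := pj_surj a
  exact ⟨v.1, v.2, (pt_of v.2).symm⟩

theorem orth_pt {v w : Fin (m + 1) → k} (hv : v ≠ 0) (hw : w ≠ 0) :
    Projectivization.orthogonal (pt v) (pt w) ↔ v ⬝ᵥ w = 0 := by
  rw [pt_of hv, pt_of hw]
  exact Iff.rfl

theorem pt_eq_of {v w : Fin (m + 1) → k} (hv : v ≠ 0) {c : k} (h : v = c • w) : pt v = pt w := by
  have hc : c ≠ 0 := by
    rintro rfl
    rw [zero_smul] at h
    exact hv h
  have hw : w ≠ 0 := by
    rintro rfl
    rw [smul_zero] at h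
    exact hv h
  rw [pt_of hv, pt_of hw, pj_eq]
  exact ⟨Units.mk0 c hc, h.symm⟩

theorem pt_inj {v w : Fin (m + 1) → k} (hv : v ≠ 0) (hw : w ≠ 0) (h : pt v = pt w) :
    ∃ c : k, c ≠ 0 ∧ v = c • w := by
  rw [pt_of hv, pt_of hw, pj_eq] at h
  obtain ⟨c, hc⟩ := h
  exact ⟨c, c.ne_zero, hc.symm⟩

theorem mulVec_ne (g : GL (Fin (m + 1)) k) {v : Fin (m + 1) → k} (hv : v ≠ 0) :
    g.1 *ᵥ v ≠ 0 := by
  intro h
  refine hv ?_
  have h1 : (g⁻¹).1 *ᵥ (g.1 *ᵥ v) = v := by
    rw [mulVec_mulVec, ← Units.val_mul, inv_mul_cancel, Units.val_one, one_mulVec]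
  rw [← h1, h, mulVec_zero]

theorem mulVec_ne' (g : SpecialLinearGroup (Fin (m + 1)) k) {v : Fin (m + 1) → k} (hv : v ≠ 0) :
    g.1 *ᵥ v ≠ 0 := by
  intro h
  refine hv ?_
  have h0 : (g⁻¹).1 * g.1 = 1 := by
    have h2 : (g⁻¹ * g).1 = (g⁻¹).1 * g.1 := Matrix.SpecialLinearGroup.coe_mul g⁻¹ g
    rw [← h2, inv_mul_cancel]
    rfl
  have h1 : (g⁻¹).1 *ᵥ (g.1 *ᵥ v) = v := by
    rw [mulVec_mulVec, h0, one_mulVec]
  rw [← h1, h, mulVec_zero]

theorem smul_pt (g : GL (Fin (m + 1)) k) {v : Fin (m + 1) → k} (hv : v ≠ 0) :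
    g • pt v = pt (g.1 *ᵥ v) := by
  rw [pt_of hv, pt_of (mulVec_ne g hv)]
  rfl

theorem mk_smul_pt (g : GL (Fin (m + 1)) k) {v : Fin (m + 1) → k} (hv : v ≠ 0) :
    (QuotientGroup.mk g : PG k (m + 1)) • pt v = pt (g.1 *ᵥ v) := by
  rw [mk_smul, smul_pt g hv]

theorem sl_smul_pt (g : SpecialLinearGroup (Fin (m + 1)) k) {v : Fin (m + 1) → k} (hv : v ≠ 0) :
    g • pt v = pt (g.1 *ᵥ v) := by
  rw [pt_of hv, pt_of (mulVec_ne' g hv)]
  rfl

/-- the basis vectors -/
abbrev ee (i : Fin (m + 1)) : Fin (m + 1) → k := Pi.single i 1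

theorem ee_ne (i : Fin (m + 1)) : (ee i : Fin (m + 1) → k) ≠ 0 := by
  intro h
  have := congrFun h i
  simp at this

theorem src_castSucc (i : Fin (m + 1)) : src k m i.castSucc = pt (ee i) := by
  rw [pt_of (ee_ne i), src]
  congr 1
  exact Subtype.ext (sv_castSucc k m i)

theorem src_last : src k m (Fin.last (m + 1)) = pt (fun _ => 1) := by
  rw [pt_of one_ne, src]
  congr 1
  exact Subtype.ext (sv_last k m)

theorem sub_ne {i j : Fin (m + 1)} (hij : i ≠ j) : (ee i - ee j : Fin (m + 1) → k) ≠ 0 := by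
  intro h
  have := congrFun h i
  simp [hij, ee, Pi.single_apply] at this

theorem add_ne {i j : Fin (m + 1)} (hij : i ≠ j) : (ee i + ee j : Fin (m + 1) → k) ≠ 0 := by
  intro h
  have := congrFun h i
  simp [hij, ee, Pi.single_apply] at this

theorem ln_ne {i j : Fin (m + 1)} (hij : i ≠ j) (t : k) :
    (ee j + t • ee i : Fin (m + 1) → k) ≠ 0 := by
  intro h
  have := congrFun h j
  simp [hij, hij.symm, ee, Pi.single_apply] at this

theorem big_ne {i j l : Fin (m + 1)} (hij : i ≠ j) (hil : i ≠ l) (t : k) :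
    (ee i - t • ee j - ee l : Fin (m + 1) → k) ≠ 0 := by
  intro h
  have := congrFun h i
  simp [hij, hil, ee, Pi.single_apply] at this

theorem un_ne {i j : Fin (m + 1)} (hij : i ≠ j) (t : k) :
    ((fun _ => 1) + t • ee i : Fin (m + 1) → k) ≠ 0 := by
  intro h
  have := congrFun h j
  simp [hij, hij.symm, ee, Pi.single_apply] at this

/-- morphisms of the incidence of points and hyperplanes which fix the frame -/
structure Fx (A B : YY k m → YY k m) : Prop where
  inc : ∀ a b, Projectivization.orthogonal a b → Projectivization.orthogonal (A a) (B b)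
  fix : ∀ i, A (src k m i) = src k m i

variable {A B : YY k m → YY k m}

theorem Fx.fix_e (h : Fx A B) (i : Fin (m + 1)) : A (pt (ee i)) = pt (ee i) := by
  have := h.fix i.castSucc
  rwa [src_castSucc] at this

theorem Fx.fix_u (h : Fx A B) : A (pt (fun _ => 1)) = pt (fun _ => (1 : k)) := by
  have := h.fix (Fin.last (m + 1))
  rwa [src_last] at this

/-- (D1) -/
theorem Fx.B_e (h : Fx A B) (l : Fin (m + 1)) : B (pt (ee l)) = pt (ee l) := by
  obtain ⟨w, hw, hBw⟩ := exists_pt (B (pt (ee l)))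
  rw [hBw]
  have h1 : ∀ j, j ≠ l → w j = 0 := by
    intro j hj
    have h2 := h.inc (pt (ee j)) (pt (ee l)) ((orth_pt (ee_ne j) (ee_ne l)).2 (by
      simp [ee, hj]))
    rw [h.fix_e, hBw, orth_pt (ee_ne j) hw] at h2
    simpa [ee] using h2
  refine pt_eq_of hw (c := w l) ?_
  funext j
  by_cases hj : j = l
  · subst hj
    simp [ee]
  · simp [ee, hj, h1 j hj]

/-- (D2) -/
theorem Fx.B_sub (h : Fx A B) {l l' : Fin (m + 1)} (hl : l ≠ l') :
    B (pt (ee l - ee l')) = pt (ee l - ee l') := by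
  obtain ⟨w, hw, hBw⟩ := exists_pt (B (pt (ee l - ee l')))
  rw [hBw]
  have h1 : ∀ j, j ≠ l → j ≠ l' → w j = 0 := by
    intro j hj hj'
    have h2 := h.inc (pt (ee j)) (pt (ee l - ee l')) ((orth_pt (ee_ne j) (sub_ne hl)).2 (by
      simp [ee, hj, hj']))
    rw [h.fix_e, hBw, orth_pt (ee_ne j) hw] at h2
    simpa [ee] using h2
  have h3 : w l + w l' = 0 := by
    have h2 := h.inc (pt (fun _ => 1)) (pt (ee l - ee l')) ((orth_pt one_ne (sub_ne hl)).2 (by
      simp [ee, dotProduct_sub]))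
    rw [h.fix_u, hBw, orth_pt one_ne hw] at h2
    rw [dotProduct] at h2
    simp only [one_mul] at h2
    rw [← h2, Finset.sum_eq_add l l' hl (fun j _ hj => h1 j hj.1 hj.2) (by simp) (by simp)]
  refine pt_eq_of hw (c := w l) ?_
  funext j
  by_cases hj : j = l
  · subst hj
    simp [ee, hl]
  · by_cases hj' : j = l'
    · subst hj'
      have : w j = - w l := by linear_combination h3
      simp [ee, hj, this]
    · simp [ee, hj, hj', h1 j hj hj']

/-- (D6) -/
theorem Fx.A_add (h : Fx A B) {i j : Fin (m + 1)} (hij : i ≠ j) :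
    A (pt (ee i + ee j)) = pt (ee i + ee j) := by
  obtain ⟨v, hv, hAv⟩ := exists_pt (A (pt (ee i + ee j)))
  rw [hAv]
  have h1 : ∀ l, l ≠ i → l ≠ j → v l = 0 := by
    intro l hl hl'
    have h2 := h.inc (pt (ee i + ee j)) (pt (ee l)) ((orth_pt (add_ne hij) (ee_ne l)).2 (by
      simp [ee, hl, hl', hl.symm, hl'.symm]))
    rw [h.B_e, hAv, orth_pt hv (ee_ne l)] at h2
    simpa [ee] using h2
  have h3 : v i = v j := by
    have h2 := h.inc (pt (ee i + ee j)) (pt (ee i - ee j))
      ((orth_pt (add_ne hij) (sub_ne hij)).2 (by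
      simp [ee, hij, hij.symm, dotProduct_sub]))
    rw [h.B_sub hij, hAv, orth_pt hv (sub_ne hij)] at h2
    rw [dotProduct_sub] at h2
    simpa [ee, sub_eq_zero] using h2
  refine pt_eq_of hv (c := v i) ?_
  funext l
  by_cases hl : l = i
  · subst hl
    simp [ee, hij]
  · by_cases hl' : l = j
    · subst hl'
      simp [ee, hl, h3]
    · simp [ee, hl, hl', h1 l hl hl']

/-- (D3) -/
theorem Fx.A_line (h : Fx A B) {i j : Fin (m + 1)} (hij : i ≠ j) (t : k) :
    ∃ α β : k, (α • ee j + β • ee i : Fin (m + 1) → k) ≠ 0 ∧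
      A (pt (ee j + t • ee i)) = pt (α • ee j + β • ee i) := by
  obtain ⟨v, hv, hAv⟩ := exists_pt (A (pt (ee j + t • ee i)))
  have h1 : ∀ l, l ≠ i → l ≠ j → v l = 0 := by
    intro l hl hl'
    have h2 := h.inc (pt (ee j + t • ee i)) (pt (ee l)) ((orth_pt (ln_ne hij t) (ee_ne l)).2 (by
      simp [ee, hl, hl', hl.symm, hl'.symm]))
    rw [h.B_e, hAv, orth_pt hv (ee_ne l)] at h2
    simpa [ee] using h2
  have e : v = v j • ee j + v i • ee i := by
    funext l
    by_cases hl : l = i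
    · subst hl
      simp [ee, hij]
    · by_cases hl' : l = j
      · subst hl'
        simp [ee, hl]
      · simp [ee, hl, hl', h1 l hl hl']
  exact ⟨v j, v i, by rw [← e]; exact hv, by rw [hAv, ← e]⟩

/-- (D4) -/
theorem Fx.B_big (h : Fx A B) {i j l : Fin (m + 1)} (hij : i ≠ j) (hil : i ≠ l) (hjl : j ≠ l)
    {t s : k} (hs : A (pt (ee j + t • ee i)) = pt (ee j + s • ee i)) :
    B (pt (ee i - t • ee j - ee l)) = pt (ee i - s • ee j - ee l) := by
  obtain ⟨w, hw, hBw⟩ := exists_pt (B (pt (ee i - t • ee j - ee l)))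
  rw [hBw]
  have h1 : ∀ p, p ≠ i → p ≠ j → p ≠ l → w p = 0 := by
    intro p hi hj hl
    have h2 := h.inc (pt (ee p)) (pt (ee i - t • ee j - ee l))
      ((orth_pt (ee_ne p) (big_ne hij hil t)).2 (by simp [ee, hi, hj, hl]))
    rw [h.fix_e, hBw, orth_pt (ee_ne p) hw] at h2
    simpa [ee] using h2
  have h3 : w i + w l = 0 := by
    have h2 := h.inc (pt (ee i + ee l)) (pt (ee i - t • ee j - ee l))
      ((orth_pt (add_ne hil) (big_ne hij hil t)).2 (by
        simp [ee, hij, hil, hjl, hij.symm, hil.symm, hjl.symm, add_dotProduct]))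
    rw [h.A_add hil, hBw, orth_pt (add_ne hil) hw, add_dotProduct] at h2
    simpa [ee] using h2
  have h4 : w j + s * w i = 0 := by
    have h2 := h.inc (pt (ee j + t • ee i)) (pt (ee i - t • ee j - ee l))
      ((orth_pt (ln_ne hij t) (big_ne hij hil t)).2 (by
        simp [ee, hij, hil, hjl, hij.symm, hil.symm, hjl.symm, add_dotProduct]))
    rw [hs, hBw, orth_pt (ln_ne hij s) hw, add_dotProduct] at h2
    simpa [ee] using h2
  refine pt_eq_of hw (c := w i) ?_
  funext p
  by_cases hi : p = i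
  · subst hi
    simp [ee, hij, hil]
  · by_cases hj : p = j
    · subst hj
      have : w p = - (s * w i) := by linear_combination h4
      simp [ee, hi, hjl, this, mul_comm]
    · by_cases hl : p = l
      · subst hl
        have : w p = - w i := by linear_combination h3
        simp [ee, hi, hj, this]
      · simp [ee, hi, hj, hl, h1 p hi hj hl]

/-- (D5) -/
theorem Fx.A_un (h : Fx A B) {i j : Fin (m + 1)} (hij : i ≠ j) (hl : ∃ l, l ≠ i ∧ l ≠ j)
    {t s : k} (hs : A (pt (ee j + t • ee i)) = pt (ee j + s • ee i)) :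
    A (pt ((fun _ => 1) + t • ee i)) = pt ((fun _ => 1) + s • ee i) := by
  obtain ⟨l, hli, hlj⟩ := hl
  obtain ⟨v, hv, hAv⟩ := exists_pt (A (pt ((fun _ => 1) + t • ee i)))
  rw [hAv]
  have h1 : ∀ p, p ≠ i → v p = v j := by
    intro p hp
    by_cases hpj : p = j
    · rw [hpj]
    have h2 := h.inc (pt ((fun _ => 1) + t • ee i)) (pt (ee p - ee j))
      ((orth_pt (un_ne hij t) (sub_ne hpj)).2 (by
        simp [ee, hp, hp.symm, hij, hij.symm, add_dotProduct, dotProduct_sub]))
    rw [h.B_sub hpj, hAv, orth_pt hv (sub_ne hpj), dotProduct_sub] at h2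
    simpa [ee, sub_eq_zero] using h2
  have h3 : v i - s * v j - v l = 0 := by
    have h2 := h.inc (pt ((fun _ => 1) + t • ee i)) (pt (ee i - t • ee j - ee l))
      ((orth_pt (un_ne hij t) (big_ne hij hli.symm t)).2 (by
        simp [ee, hij, hli, hlj, hij.symm, hli.symm, hlj.symm, add_dotProduct, dotProduct_sub]))
    rw [h.B_big hij hli.symm hlj.symm hs, hAv, orth_pt hv (big_ne hij hli.symm s),
      dotProduct_sub, dotProduct_sub, dotProduct_smul] at h2
    simpa [ee] using h2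
  refine pt_eq_of hv (c := v j) ?_
  funext p
  by_cases hp : p = i
  · subst hp
    rw [h1 l hli] at h3
    have : v p = v j * (1 + s) := by linear_combination h3
    simpa [ee] using this
  · simp [ee, hp, h1 p hp]

end pts

end Vale.Agent.P092.H121
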